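import Vale.Agent.P217.CharZero.Vectors

/-!
# P217: powers of a deep automorphism move a point very little
-/

noncomputable section

namespace Vale.Agent.P217

open MvPowerSeries Filter Topology
open scoped Matrix

variable {p : ℕ} [hp : Fact p.Prime] {n : ℕ} {k : Type} [Field k] [CharP k p] [Fintype k]

/-- `γ - 1` raises the `m`-adic filtration by `N`. -/
lemma gamma_sub_mem {γ : LT p n k →+* LT p n k}
    (hC : ∀ a : WittVector p k, γ (MvPowerSeries.C a) = MvPowerSeries.C a) {N : ℕ}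
    (hX : ∀ i, γ (MvPowerSeries.X i) - MvPowerSeries.X i ∈ mIdeal p n k ^ N) (f : LT p n k) :
    γ f - f ∈ mIdeal p n k ^ N := by
  suffices ∀ s ≤ N, ∀ f, γ f - f ∈ mIdeal p n k ^ s from this N le_rfl f
  intro s
  induction s with
  | zero => intro _ f; simp
  | succ s ih =>
    intro hs f
    suffices ∀ g ∈ mIdeal p n k, γ g - g ∈ mIdeal p n k ^ (s + 1) by
      have := this _ (sub_const_mem f)
      rwa [map_sub, hC, sub_sub_sub_cancel_right] at this
    intro g hg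
    refine Submodule.span_induction (fun y hy => ?_) (by simp) (fun y z _ _ a b => ?_)
      (fun a y hy ha => ?_) hg
    · rcases hy with rfl | ⟨i, rfl⟩
      · simp
      · exact Ideal.pow_le_pow_right hs (hX i)
    · rw [map_add, add_sub_add_comm]
      exact Submodule.add_mem _ a b
    · rw [smul_eq_mul, map_mul, show γ a * γ y - a * y = γ a * (γ y - y) + (γ a - a) * y by ring]
      refine Submodule.add_mem _ (Ideal.mul_mem_left _ _ ha) ?_
      rw [pow_succ]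
      exact Ideal.mul_mem_mul (ih (by omega) a) hy

lemma gamma_sub_mem_pow {γ : LT p n k →+* LT p n k}
    (hC : ∀ a : WittVector p k, γ (MvPowerSeries.C a) = MvPowerSeries.C a) {N : ℕ} (hN : 1 ≤ N)
    (hX : ∀ i, γ (MvPowerSeries.X i) - MvPowerSeries.X i ∈ mIdeal p n k ^ N) :
    ∀ a, ∀ f ∈ mIdeal p n k ^ a, γ f - f ∈ mIdeal p n k ^ (a + (N - 1)) ∧
      γ f ∈ mIdeal p n k ^ a := by
  intro a
  induction a with
  | zero =>
    intro f _
    exact ⟨Ideal.pow_le_pow_right (by omega) (gamma_sub_mem hC hX f), by simp⟩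
  | succ a ih =>
    intro f hf
    have h1 : γ f - f ∈ mIdeal p n k ^ (a + 1 + (N - 1)) := by
      rw [pow_succ'] at hf
      refine Submodule.mul_induction_on hf (fun g hg y hy => ?_) fun x y hx hy => ?_
      · rw [map_mul, show γ g * γ y - g * y = (γ g - g) * γ y + g * (γ y - y) by ring]
        refine Submodule.add_mem _ ?_ ?_
        · rw [show a + 1 + (N - 1) = N + a by omega, pow_add]
          exact Ideal.mul_mem_mul (gamma_sub_mem hC hX g) (ih y hy).2
        · rw [show a + 1 + (N - 1) = (a + (N - 1)) + 1 by omega, pow_succ']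
          exact Ideal.mul_mem_mul hg (ih y hy).1
      · rw [map_add, add_sub_add_comm]
        exact Submodule.add_mem _ hx hy
    refine ⟨h1, ?_⟩
    have := Submodule.add_mem _ (Ideal.pow_le_pow_right (by omega : a + 1 ≤ a + 1 + (N - 1)) h1) hf
    rwa [sub_add_cancel] at this

lemma gammaIter_apply (γ : LT p n k →+* LT p n k) (m : ℕ) (f : LT p n k) :
    gammaIter γ m f = (γ^[m]) f := by
  induction m generalizing f with
  | zero => rfl
  | succ m ih => rw [gammaIter, RingHom.comp_apply, ih, Function.iterate_succ_apply]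

/-- `γ - 1` as an additive map. -/
def dOp (γ : LT p n k →+* LT p n k) : AddMonoid.End (LT p n k) :=
  γ.toAddMonoidHom - AddMonoidHom.id _

lemma dOp_apply (γ : LT p n k →+* LT p n k) (f : LT p n k) : dOp γ f = γ f - f := rfl

lemma gammaIter_binom (γ : LT p n k →+* LT p n k) :
    ∀ (M : ℕ) (f : LT p n k),
      gammaIter γ M f = ∑ j ∈ Finset.range (M + 1), M.choose j • (dOp γ)^[j] f := by
  intro M f
  have h0 : ∀ g, (dOp γ + 1) g = γ g := fun g => by
    show (γ g - g) + g = γ g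
    rw [sub_add_cancel]
  have h1 : gammaIter γ M f = ((dOp γ + 1) ^ M : AddMonoid.End (LT p n k)) f := by
    rw [gammaIter_apply, AddMonoid.End.coe_pow,
      show (⇑(dOp γ + 1) : LT p n k → LT p n k) = ⇑γ from funext h0]
  rw [h1, (Commute.one_right _).add_pow]
  refine (AddMonoidHom.finsetSum_apply _ _ _).trans (Finset.sum_congr rfl fun j _ => ?_)
  rw [one_pow, mul_one, ← nsmul_eq_mul', AddMonoid.End.coe_pow] at *
  rfl

lemma dOp_iterate_mem {γ : LT p n k →+* LT p n k}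
    (hC : ∀ a : WittVector p k, γ (MvPowerSeries.C a) = MvPowerSeries.C a) {N : ℕ} (hN : 1 ≤ N)
    (hX : ∀ i, γ (MvPowerSeries.X i) - MvPowerSeries.X i ∈ mIdeal p n k ^ N) (i : Fin (n - 1)) :
    ∀ j, (dOp γ)^[j] (MvPowerSeries.X i) ∈ mIdeal p n k ^ (1 + j * (N - 1)) := by
  intro j
  induction j with
  | zero =>
    simp only [Function.iterate_zero_apply, zero_mul, add_zero, pow_one]
    exact Ideal.subset_span (Set.mem_insert_of_mem _ ⟨i, rfl⟩)
  | succ j ih =>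
    rw [Function.iterate_succ_apply', dOp_apply, add_one_mul, ← add_assoc]
    exact (gamma_sub_mem_pow hC hN hX _ _ ih).1

variable {C : Type} [NormedField C] [IsUltrametricDist C]
  (S : Sharp p C) (j : k →+* unitBall C)

omit [Fintype k] in
lemma norm_evK_mIdeal {u : Fin (n - 1) → ℂ_[p]} (hu : Small u) {r : ℝ} (hr0 : 0 ≤ r)
    (hp' : (p : ℝ)⁻¹ ≤ r) (hr : ∀ i, ‖u i‖ ≤ r) :
    ∀ a, ∀ f ∈ mIdeal p n k ^ a, ‖evK (iota S j) u f‖ ≤ r ^ a := by
  intro a
  induction a with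
  | zero =>
    intro f _
    rw [pow_zero]
    exact Eval.norm_ev_le_one (intSer_map (norm_iota_le S j) f) hu
  | succ a ih =>
    intro f hf
    rw [pow_succ'] at hf
    set E := evHom (iota S j) (norm_iota_le S j) hu
    refine Submodule.mul_induction_on hf (fun g hg y hy => ?_) fun x y hx hy => ?_
    · show ‖E (g * y)‖ ≤ _
      rw [map_mul, norm_mul, pow_succ']
      refine mul_le_mul ?_ (ih y hy) (norm_nonneg _) hr0
      refine Submodule.span_induction (p := fun z _ => ‖E z‖ ≤ r) (fun z hz => ?_) (by simpa using hr0)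
        (fun x y _ _ a b => by
          rw [map_add]; exact (IsUltrametricDist.norm_add_le_max _ _).trans (max_le a b))
        (fun a x _ hx => by
          rw [smul_eq_mul, map_mul, norm_mul]
          exact (mul_le_of_le_one_left (norm_nonneg _)
            (Eval.norm_ev_le_one (intSer_map (norm_iota_le S j) a) hu)).trans hx) hg
      rcases hz with rfl | ⟨i, rfl⟩
      · rw [map_natCast, norm_natCast_padic]; exact hp'
      · rw [evHom_apply, evK_X']; exact hr i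
    · show ‖E (x + y)‖ ≤ _
      rw [map_add]
      exact (IsUltrametricDist.norm_add_le_max _ _).trans (max_le hx hy)

lemma inv_le_norm_natCast {j : ℕ} (hj : j ≠ 0) : (1 : ℝ) / j ≤ ‖(j : ℂ_[p])‖ := by
  obtain ⟨v, j', hj', rfl⟩ := Nat.exists_eq_pow_mul_and_not_dvd hj p hp.out.one_lt.ne'
  have h1 : ‖(j' : ℂ_[p])‖ = 1 := by
    rw [← map_natCast (algebraMap ℚ_[p] ℂ_[p]) j']
    exact (PadicComplex.norm_extends' p _).trans
      (Padic.norm_natCast_eq_one_iff.mpr ((hp.out.coprime_iff_not_dvd).mpr hj'))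
  rw [Nat.cast_mul, Nat.cast_pow, Nat.cast_mul, Nat.cast_pow, norm_mul, norm_pow,
    norm_natCast_padic, h1, mul_one, inv_pow, one_div]
  refine inv_anti₀ (by exact_mod_cast pow_pos hp.out.pos v) ?_
  have : (1 : ℝ) ≤ j' := by
    exact_mod_cast Nat.one_le_iff_ne_zero.mpr (by rintro rfl; exact hj' (dvd_zero p))
  exact le_mul_of_one_le_right (by positivity) this

lemma norm_choose_pow_le (M : ℕ) {j : ℕ} (hj : j ≠ 0) :
    ‖(((p ^ M).choose j : ℕ) : ℂ_[p])‖ ≤ (p : ℝ)⁻¹ ^ M * j := by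
  obtain ⟨i, rfl⟩ : ∃ i, j = i + 1 := ⟨j - 1, by omega⟩
  obtain ⟨P, hP⟩ : ∃ P, p ^ M = P + 1 :=
    ⟨p ^ M - 1, by have := Nat.one_le_pow M p hp.out.pos; omega⟩
  have h := Nat.add_one_mul_choose_eq P i
  rw [← hP] at h
  have h2 : ‖(((i + 1 : ℕ) : ℂ_[p]))‖ * ‖(((p ^ M).choose (i + 1) : ℕ) : ℂ_[p])‖ ≤
      (p : ℝ)⁻¹ ^ M := by
    rw [← norm_mul, ← Nat.cast_mul, mul_comm, ← h, Nat.cast_mul, norm_mul, Nat.cast_pow, norm_pow,
      norm_natCast_padic]
    exact mul_le_of_le_one_right (by positivity) (IsUltrametricDist.norm_natCast_le_one _ _)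
  have hpos : (0 : ℝ) < (i + 1 : ℕ) := by positivity
  calc ‖(((p ^ M).choose (i + 1) : ℕ) : ℂ_[p])‖
      = ((i + 1 : ℕ) : ℝ) * ((1 / ((i + 1 : ℕ) : ℝ)) * ‖(((p ^ M).choose (i + 1) : ℕ) : ℂ_[p])‖) := by
        field_simp
    _ ≤ ((i + 1 : ℕ) : ℝ) * (p : ℝ)⁻¹ ^ M := mul_le_mul_of_nonneg_left
        ((mul_le_mul_of_nonneg_right (inv_le_norm_natCast (by omega)) (norm_nonneg _)).trans h2)
        hpos.le
    _ = _ := mul_comm _ _

lemma exists_mul_pow_bound {r : ℝ} (hr0 : 0 ≤ r) (hr1 : r < 1) :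
    ∃ B : ℝ, 0 ≤ B ∧ ∀ i : ℕ, ((i : ℝ) + 2) * r ^ i ≤ B := by
  have h : Tendsto (fun i : ℕ => (i : ℝ) * r ^ i + 2 * r ^ i) atTop (𝓝 (0 + 2 * 0)) :=
    (tendsto_self_mul_const_pow_of_lt_one hr0 hr1).add
      ((tendsto_pow_atTop_nhds_zero_of_lt_one hr0 hr1).const_mul 2)
  obtain ⟨B, hB⟩ := h.bddAbove_range
  refine ⟨max B 0, le_max_right _ _, fun i => ?_⟩
  rw [add_mul]
  exact (hB ⟨i, rfl⟩).trans (le_max_left _ _)

omit [Fintype k] in
lemma norm_nsmul_evK {u : Fin (n - 1) → ℂ_[p]} (hu : Small u) (m : ℕ) (f : LT p n k) :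
    evK (iota S j) u (m • f) = (m : ℂ_[p]) * evK (iota S j) u f := by
  rw [← nsmul_eq_mul]
  exact map_nsmul (evHom (iota S j) (norm_iota_le S j) hu) m f

/-- A deep automorphism moves `u` by `O(p^(-M))` after `p^M` steps. -/
lemma exists_orbit_bound {u : Fin (n - 1) → ℂ_[p]} (hu : Small u) :
    ∃ B : ℝ, 0 ≤ B ∧ ∀ (γ : LT p n k →+* LT p n k) (N M : ℕ), 2 ≤ N →
      (∀ a : WittVector p k, γ (MvPowerSeries.C a) = MvPowerSeries.C a) →
      (∀ i, γ (MvPowerSeries.X i) - MvPowerSeries.X i ∈ mIdeal p n k ^ N) →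
      ∀ i, ‖evK (iota S j) u (gammaIter γ (p ^ M) (MvPowerSeries.X i)) - u i‖ ≤
        B * (p : ℝ)⁻¹ ^ M := by
  classical
  obtain ⟨r, hr0, hr1, hr⟩ := Eval.exists_radius hu
  set r₀ := max r (p : ℝ)⁻¹ with hr₀
  have h00 : 0 ≤ r₀ := le_trans hr0 (le_max_left _ _)
  have h01 : r₀ < 1 := max_lt hr1 (inv_lt_one_of_one_lt₀ (by exact_mod_cast hp.out.one_lt))
  obtain ⟨B, hB0, hB⟩ := exists_mul_pow_bound h00 h01
  refine ⟨B, hB0, fun γ N M hN hC hX i => ?_⟩
  set E := evHom (iota S j) (norm_iota_le S j) hu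
  show ‖E (gammaIter γ (p ^ M) (MvPowerSeries.X i)) - u i‖ ≤ _
  rw [gammaIter_binom, map_sum, Finset.sum_range_succ']
  simp only [Nat.choose_zero_right, one_smul, Function.iterate_zero_apply]
  rw [show E (MvPowerSeries.X i) = u i from evK_X' _ _ _, add_sub_cancel_right]
  refine IsUltrametricDist.norm_sum_le_of_forall_le_of_nonneg (by positivity) fun l _ => ?_
  rw [map_nsmul, nsmul_eq_mul, norm_mul]
  have h1 := norm_evK_mIdeal S j hu h00 (le_max_right _ _)
    (fun i => (hr i).trans (le_max_left _ _)) _ _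
    (dOp_iterate_mem hC (by omega) hX i (l + 1))
  have h2 : r₀ ^ (1 + (l + 1) * (N - 1)) ≤ r₀ ^ l :=
    pow_le_pow_of_le_one h00 h01.le (by
      have : l + 1 ≤ (l + 1) * (N - 1) := Nat.le_mul_of_pos_right _ (by omega)
      omega)
  calc ‖(((p ^ M).choose (l + 1) : ℕ) : ℂ_[p])‖ * ‖E ((dOp γ)^[l + 1] (MvPowerSeries.X i))‖
      ≤ ((p : ℝ)⁻¹ ^ M * ((l + 1 : ℕ) : ℝ)) * r₀ ^ l :=
        mul_le_mul (norm_choose_pow_le M (by omega)) (h1.trans h2) (norm_nonneg _) (by positivity)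
    _ ≤ (p : ℝ)⁻¹ ^ M * B := by
        rw [mul_assoc]
        refine mul_le_mul_of_nonneg_left (le_trans ?_ (hB l)) (by positivity)
        refine mul_le_mul_of_nonneg_right ?_ (pow_nonneg h00 _)
        push_cast
        linarith
    _ = B * (p : ℝ)⁻¹ ^ M := mul_comm _ _

/-- Entries of norm at most one. -/
def MatInt {m : ℕ} (A : Matrix (Fin m) (Fin m) ℂ_[p]) : Prop := ∀ r s, ‖A r s‖ ≤ 1

omit [Fintype k] in
lemma MatInt.pow {m : ℕ} {A : Matrix (Fin m) (Fin m) ℂ_[p]} (hA : MatInt A) : ∀ i, MatInt (A ^ i)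
  | 0 => fun r s => by
    rw [pow_zero, Matrix.one_apply]
    split_ifs <;> simp
  | i + 1 => fun r s => by
    rw [pow_succ, Matrix.mul_apply]
    exact IsUltrametricDist.norm_sum_le_of_forall_le_of_nonneg zero_le_one fun t _ => by
      rw [norm_mul]
      exact mul_le_one₀ (MatInt.pow hA i r t) (norm_nonneg _) (hA t s)

lemma exists_pow_matrix_bound (m : ℕ) : ∃ B : ℝ, 0 ≤ B ∧ ∀ (A : Matrix (Fin m) (Fin m) ℂ_[p]),
    MatInt A → ∀ l M : ℕ, 1 ≤ l → ∀ r s,
      ‖((1 + (p : ℂ_[p]) ^ l • A) ^ p ^ M - 1 - (p : ℂ_[p]) ^ (M + l) • A) r s‖ ≤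
        B * (p : ℝ)⁻¹ ^ (M + 2 * l) := by
  have hp1 : (p : ℝ)⁻¹ < 1 := inv_lt_one_of_one_lt₀ (by exact_mod_cast hp.out.one_lt)
  obtain ⟨B, hB0, hB⟩ := exists_mul_pow_bound (inv_nonneg.mpr (Nat.cast_nonneg p)) hp1
  refine ⟨B, hB0, fun A hA l M hl r s => ?_⟩
  obtain ⟨P, hP⟩ : ∃ P, p ^ M = P + 1 :=
    ⟨p ^ M - 1, by have := Nat.one_le_pow M p hp.out.pos; omega⟩
  rw [add_comm (1 : Matrix (Fin m) (Fin m) ℂ_[p]), (Commute.one_right _).add_pow, hP,
    Finset.sum_range_succ', Finset.sum_range_succ']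
  simp only [pow_zero, one_pow, mul_one, one_mul, Nat.choose_zero_right, Nat.cast_one, zero_add,
    pow_one, Nat.choose_one_right]
  rw [show ((p : ℂ_[p]) ^ l • A * ((P + 1 : ℕ) : Matrix (Fin m) (Fin m) ℂ_[p])) =
      (p : ℂ_[p]) ^ (M + l) • A by
    rw [← hP, ← nsmul_eq_mul', ← Nat.cast_smul_eq_nsmul ℂ_[p], smul_smul, pow_add, Nat.cast_pow],
    add_sub_cancel_right, add_sub_cancel_right, Matrix.sum_apply]
  refine IsUltrametricDist.norm_sum_le_of_forall_le_of_nonneg (by positivity) fun i _ => ?_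
  rw [← nsmul_eq_mul', Matrix.smul_apply, smul_pow, Matrix.smul_apply, nsmul_eq_mul, norm_mul,
    smul_eq_mul, norm_mul, norm_pow, norm_pow, norm_natCast_padic, ← hP]
  calc ‖(((p ^ M).choose (i + 1 + 1) : ℕ) : ℂ_[p])‖ *
        (((p : ℝ)⁻¹ ^ l) ^ (i + 1 + 1) * ‖(A ^ (i + 1 + 1)) r s‖)
      ≤ ((p : ℝ)⁻¹ ^ M * ((i + 1 + 1 : ℕ) : ℝ)) * (((p : ℝ)⁻¹ ^ l) ^ (i + 1 + 1) * 1) := by
        refine mul_le_mul (norm_choose_pow_le M (by omega))
          (mul_le_mul_of_nonneg_left (hA.pow _ r s) (by positivity)) (by positivity) (by positivity)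
    _ = (p : ℝ)⁻¹ ^ (M + 2 * l) * (((i : ℝ) + 2) * ((p : ℝ)⁻¹ ^ l) ^ i) := by
        push_cast
        ring
    _ ≤ (p : ℝ)⁻¹ ^ (M + 2 * l) * B := by
        refine mul_le_mul_of_nonneg_left (le_trans ?_ (hB i)) (by positivity)
        refine mul_le_mul_of_nonneg_left ?_ (by positivity)
        exact pow_le_pow_left₀ (by positivity)
          (pow_le_of_le_one (by positivity) hp1.le (by omega)) _
    _ = B * (p : ℝ)⁻¹ ^ (M + 2 * l) := mul_comm _ _

end Vale.Agent.P217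

end
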