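import Vale.Agent.P217.CharZero.LogVal
import Vale.Agent.P217.Main

/-!
# P217: the periods along the orbit of a point in characteristic zero
-/

noncomputable section

namespace Vale.Agent.P217

open MvPowerSeries Filter Topology

section EvHom

variable {A : Type} [CommRing A] {C : Type} [NormedField C] [IsUltrametricDist C] [CompleteSpace C]
  {σ : Type} [Fintype σ]

lemma intSer_map {ι : A →+* C} (hι : ∀ a, ‖ι a‖ ≤ 1) (f : MvPowerSeries σ A) :
    IntSer (MvPowerSeries.map ι f) := fun d => by rw [coeff_map]; exact hι _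

/-- Evaluation at a small point, as a ring map. -/
def evHom (ι : A →+* C) (hι : ∀ a, ‖ι a‖ ≤ 1) {x : σ → C} (hx : Small x) :
    MvPowerSeries σ A →+* C where
  toFun := evK ι x
  map_one' := by
    rw [evK, map_one, ← map_one (MvPowerSeries.C : C →+* MvPowerSeries σ C)]
    exact Eval.ev_C x 1
  map_mul' f g := by
    simp only [evK, map_mul]
    exact Eval.ev_mul (intSer_map hι f) (intSer_map hι g) hx
  map_zero' := by simp [evK, ev]
  map_add' f g := by
    simp only [evK, map_add]
    exact Eval.ev_add (intSer_map hι f) (intSer_map hι g) hx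

@[simp] lemma evHom_apply (ι : A →+* C) (hι : ∀ a, ‖ι a‖ ≤ 1) {x : σ → C} (hx : Small x)
    (f : MvPowerSeries σ A) : evHom ι hι hx f = evK ι x f := rfl

lemma evK_C (ι : A →+* C) (x : σ → C) (a : A) : evK ι x (MvPowerSeries.C a) = ι a := by
  rw [evK, map_C]
  exact Eval.ev_C x _

lemma evK_X' (ι : A →+* C) (x : σ → C) (i : σ) : evK ι x (MvPowerSeries.X i) = x i := by
  rw [evK, map_X]
  exact Eval.ev_X x i

end EvHom

variable {p : ℕ} [hp : Fact p.Prime] {k : Type} [Field k] [CharP k p]
  {C : Type} [NormedField C] [IsUltrametricDist C]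

/-- The map `W(k) → ℂ_p` attached to an untilt and an embedding of `k`. -/
def iota (S : Sharp p C) (j : k →+* unitBall C) : WittVector p k →+* ℂ_[p] :=
  S.θ.comp (WittVector.map j)

variable (S : Sharp p C) (j : k →+* unitBall C)

lemma norm_iota_le (w : WittVector p k) : ‖iota S j w‖ ≤ 1 := S.θ_le _

lemma norm_iota_p : ‖iota S j (p : WittVector p k)‖ < 1 := by
  rw [map_natCast, norm_natCast_padic]
  exact inv_lt_one_of_one_lt₀ (by exact_mod_cast hp.out.one_lt)

lemma norm_iota_sub [PerfectRing k p] (w : WittVector p k) :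
    ‖iota S j w - S.ρ (j (WittVector.constantCoeff w) : C)‖ ≤ 1 / p := by
  set t := WittVector.teichmuller p (WittVector.constantCoeff w)
  have hmem : w - t ∈ Ideal.span {(p : WittVector p k)} := by
    rw [WittVector.mem_span_p_iff_coeff_zero_eq_zero]
    show WittVector.constantCoeff (w - t) = 0
    rw [map_sub, sub_eq_zero]
    exact (WittVector.teichmuller_coeff_zero p _).symm
  obtain ⟨e, he⟩ := Ideal.mem_span_singleton'.mp hmem
  have ht : iota S j t = S.ρ (j (WittVector.constantCoeff w) : C) := by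
    rw [iota, RingHom.comp_apply, WittVector.map_teichmuller, S.θ_teich]
  rw [← ht, ← map_sub, ← he, map_mul, norm_mul, map_natCast, norm_natCast_padic, one_div]
  exact mul_le_of_le_one_left (by positivity) (norm_iota_le S j e)

variable [Fintype k] {n : ℕ} [CompleteSpace C] [CharP C p] [PerfectRing C p]

/-- The data of an admissible automorphism at a point. -/
structure Step (n : ℕ) (g : PowerSeries k) (u u' : Fin (n - 1) → ℂ_[p]) : Prop where
  small : Small u'
  period : ∃ lam : ℂ_[p], ∀ η : C, ‖η‖ < 1 →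
    Lv p n S (vTuple n u') (ev1 η (PowerSeries.map ((unitBall C).subtype.comp j) g)) =
      lam * Lv p n S (vTuple n u) η

lemma law_at (hn : 1 ≤ n) {u : Fin (n - 1) → ℂ_[p]} (hu : Small u) :
    (univLaw p n k).map (evHom (iota S j) (norm_iota_le S j) hu) = law p (vTuple n u) := by
  rw [univLaw, law_map]
  congr 1
  funext i
  rw [map_vTuple]
  congr 1
  funext l
  exact evK_X' _ _ _

lemma endo_coeff_fixed (hHom : HomTarget) (hn : 1 ≤ n) {g : PowerSeries k}
    (hg : IsEndo (honda p n k) g) (m : ℕ) :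
    PowerSeries.coeff m g ^ p ^ n = PowerSeries.coeff m g :=
  (hHom p).2.2 k n g hn hg m

lemma exists_step (hA : ActionTarget) (hTh : ThetaTarget) (hP : PeriodTarget) (hHom : HomTarget)
    (hn : 1 ≤ n) (hk : Fintype.card k = p ^ n) {u : Fin (n - 1) → ℂ_[p]} (hu : Small u)
    {g : PowerSeries k} {γ : LT p n k →+* LT p n k} {φ : PowerSeries (LT p n k)}
    (hg : IsAut p n k g) (hγ : IsAction p n k g 0 γ φ) :
    Step S j n g u (fun i => evK (iota S j) u (γ (MvPowerSeries.X i))) := by
  obtain ⟨-, -, -, -, hev⟩ := (hA p n hn k hk).2.1 g 0 γ φ hg hγ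
  obtain ⟨hsmall, hfor⟩ := hev ℂ_[p] (iota S j) (norm_iota_le S j) (norm_iota_p S j) u hu
  simp only [pow_zero] at hfor
  set u' := fun i => evK (iota S j) u (γ (MvPowerSeries.X i)) with hu'
  refine ⟨hsmall, ?_⟩
  set E := evHom (iota S j) (norm_iota_le S j) hu with hE
  set φu : PowerSeries ℂ_[p] := PowerSeries.map E φ with hφu
  have hlaw' : ((univLaw p n k).map γ).map E = law p (vTuple n u') := by
    have hc : E.comp γ = evHom (iota S j) (norm_iota_le S j) hsmall := RingHom.ext fun f => by
      show evK (iota S j) u (γ f) = evK (iota S j) u' f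
      exact hfor f
    rw [← law_at S j hn hsmall, ← hc]
    exact formalGroup_map_map γ E _
  have hhom : IsHom (law p (vTuple n u)) (law p (vTuple n u')) φu := by
    obtain ⟨-, ⟨h0, h1⟩, -⟩ := hγ
    refine ⟨by rw [← PowerSeries.coeff_zero_eq_constantCoeff_apply, hφu, PowerSeries.coeff_map,
      PowerSeries.coeff_zero_eq_constantCoeff_apply, h0, map_zero], ?_⟩
    have h2 := congrArg (MvPowerSeries.map E) h1
    have hs : ∀ a : MvPowerSeries (Fin 2) (LT p n k), constantCoeff a = 0 →
        MvPowerSeries.map E (φ.subst a) = φu.subst (MvPowerSeries.map E a) := fun a ha =>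
      PowerSeries.map_subst (PowerSeries.HasSubst.of_constantCoeff_zero ha) φ
    rw [hs _ (FormalGroup.zero_constantCoeff _), map_fadd _ _
      (ps_constantCoeff h0 (constantCoeff_X _)) (ps_constantCoeff h0 (constantCoeff_X _)),
      hs _ (constantCoeff_X _), hs _ (constantCoeff_X _), hlaw', map_X, map_X] at h2
    rw [← FormalGroup.map_toPowerSeries, law_at S j hn hu] at h2
    exact h2
  have hint : IntSer φu := fun d => by
    show ‖evK (iota S j) u (MvPowerSeries.coeff d (φ : MvPowerSeries Unit (LT p n k)))‖ ≤ 1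
    exact Eval.norm_ev_le_one (intSer_map (norm_iota_le S j) _) hu
  set a : PowerSeries C := PowerSeries.map ((unitBall C).subtype.comp j) g with ha
  have ha0 : PowerSeries.constantCoeff a = 0 := by
    rw [← PowerSeries.coeff_zero_eq_constantCoeff_apply, ha, PowerSeries.coeff_map,
      PowerSeries.coeff_zero_eq_constantCoeff_apply, hg.1.1, map_zero]
  have haint : IntSer a := fun d => by
    show ‖((j (MvPowerSeries.coeff d (g : MvPowerSeries Unit k)) : unitBall C) : C)‖ ≤ 1
    exact (j _).2
  obtain ⟨r, hr0, hr1, hr⟩ := Eval.exists_radius hu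
  obtain ⟨r', hr0', hr1', hr'⟩ := Eval.exists_radius hsmall
  set c : ℝ := max (1 / p) (max r r') with hc
  have hpc : (1 / p : ℝ) ≤ c := le_max_left _ _
  have hc1 : c < 1 := max_lt (by
    rw [one_div]; exact inv_lt_one_of_one_lt₀ (by exact_mod_cast hp.out.one_lt)) (max_lt hr1 hr1')
  obtain ⟨-, -, hth⟩ := hTh p C ℂ_[p] S.ρ c hc1 S.norm_eq
    (by rw [norm_natCast_padic, ← one_div]; exact hpc)
    (fun x y hx hy => (S.add_le x y hx hy).trans hpc) n hn u
    (fun i => (hr i).trans ((le_max_left _ _).trans (le_max_right _ _)))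
  obtain ⟨-, hfun⟩ := hth u' (fun i => (hr' i).trans ((le_max_right _ _).trans (le_max_right _ _)))
  have hclose : ∀ m, ‖PowerSeries.coeff m φu - S.ρ (PowerSeries.coeff m a)‖ ≤ c := by
    intro m
    have hres : res p n k (PowerSeries.coeff m φ) = PowerSeries.coeff m g := by
      rw [← hγ.2.2, PowerSeries.coeff_map]
    rw [hφu, PowerSeries.coeff_map, ha, PowerSeries.coeff_map, ← hres]
    set f := PowerSeries.coeff m φ
    have h1 : ‖evK (iota S j) u f - iota S j (constantCoeff f)‖ ≤ r := by
      have := Eval.norm_ev_sub_le (intSer_map (norm_iota_le S j) f) hu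
        (y := fun _ => (0 : ℂ_[p])) (fun _ => by simp) hr0 (fun i => by simpa using hr i)
      rwa [Eval.ev_zero, constantCoeff_map] at this
    show ‖evK (iota S j) u f - S.ρ (j (WittVector.constantCoeff (constantCoeff f)) : C)‖ ≤ c
    rw [← sub_add_sub_cancel _ (iota S j (constantCoeff f))]
    refine (IsUltrametricDist.norm_add_le_max _ _).trans (max_le ?_ ?_)
    · exact h1.trans ((le_max_left _ _).trans (le_max_right _ _))
    · exact (norm_iota_sub S j _).trans hpc
  have hfix : ∀ m, PowerSeries.coeff m a ^ p ^ n = PowerSeries.coeff m a := fun m => by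
    rw [ha, PowerSeries.coeff_map, ← map_pow, endo_coeff_fixed hHom hn hg.1 m]
  refine ⟨PowerSeries.coeff 1 φu, fun η hη => ?_⟩
  have hlog := ((hP p C S n hn).2.2.2 u hu).2.2
  have hlog' := ((hP p C S n hn).2.2.2 u' hsmall).2.2
  have hη' : ‖ev1 η a‖ < 1 :=
    (Eval.norm_ev_le (σ := Unit) haint (fun _ => hη) ha0 (norm_nonneg η) fun _ => le_rfl).trans_lt hη
  rw [← hlog' _ hη', hfun φu a hint haint ha0 hfix hhom hclose η hη, ← hlog η hη]
  obtain ⟨hth1, -⟩ := (hTh p C ℂ_[p] S.ρ c hc1 S.norm_eq
    (by rw [norm_natCast_padic, ← one_div]; exact hpc)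
    (fun x y hx hy => (S.add_le x y hx hy).trans hpc) n hn u
    (fun i => (hr i).trans ((le_max_left _ _).trans (le_max_right _ _))))
  exact logVal_hom hHom (norm_vTuple_le fun i => (hsmall i).le) hint hhom (hth1 η hη).2.1

end Vale.Agent.P217

end
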