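import Vale.Agent.P217.CharZero.Series
import Vale.Agent.P217.CharZero.Deep
import Mathlib.Topology.Algebra.Module.FiniteDimension
import Mathlib.LinearAlgebra.Dimension.Constructions

/-!
# P217: the vector of quasi-periods is differentiable
-/

noncomputable section

namespace Vale.Agent.P217

open MvPowerSeries Filter Topology
open scoped Matrix

section Approx

variable {C : Type} [NormedField C] [IsUltrametricDist C] [CompleteSpace C] {σ : Type} [Fintype σ]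

/-- The linear part of a series. -/
def linPart (T : MvPowerSeries σ C) : (σ → C) →ₗ[C] C :=
  ∑ i, coeff (Finsupp.single i 1) T • LinearMap.proj i

lemma eval_homPart_one (T : MvPowerSeries σ C) (η : σ → C) :
    MvPolynomial.eval η (homPart T 1) = linPart T η := by
  classical
  have hset : (finite_deg_eq (σ := σ) 1).toFinset =
      Finset.univ.image fun i => Finsupp.single i 1 := by
    ext d
    simp only [Set.Finite.mem_toFinset, Finset.mem_image, Finset.mem_univ, true_and]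
    constructor
    · intro (hd : deg d = 1)
      obtain ⟨i, e, rfl, he⟩ := Eval.exists_single_add (m := 0) hd
      exact ⟨i, by rw [Eval.deg_eq_zero he, add_zero]⟩
    · rintro ⟨i, rfl⟩
      exact Eval.deg_single i 1
  rw [eval_homPart, hset, Finset.sum_image fun a _ b _ h => Finsupp.single_left_injective one_ne_zero h]
  simp [linPart, Eval.mon_single]

lemma linear_approx {T : MvPowerSeries σ C} (hT : IntSer T) {η : σ → C} (hη : ‖η‖ < 1) :
    ‖ev η T - constantCoeff T - linPart T η‖ ≤ ‖η‖ ^ 2 := by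
  classical
  have hc : IntSer (MvPowerSeries.C (constantCoeff T) : MvPowerSeries σ C) :=
    Eval.intSer_C (hT 0)
  have hs : Small η := fun i => (norm_le_pi_norm η i).trans_lt hη
  have h := norm_ev_sub_homPart (Eval.intSer_sub hT hc) (m := 1) (fun d hd => by
      rw [Eval.deg_eq_zero (Nat.lt_one_iff.mp hd), map_sub, coeff_zero_C,
        coeff_zero_eq_constantCoeff_apply, sub_self])
    (norm_nonneg η) hη (norm_le_pi_norm η)
  rw [Eval.ev_sub hT hc hs, Eval.ev_C, eval_homPart_one] at h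
  have e : linPart (T - MvPowerSeries.C (constantCoeff T)) η = linPart T η := by
    simp [linPart, coeff_C]
  rwa [e] at h

end Approx

variable {p : ℕ} [hp : Fact p.Prime] {n : ℕ}

lemma exists_scale {u : Fin (n - 1) → ℂ_[p]} (hu : Small u) :
    ∃ ϖ : ℂ_[p], ϖ ≠ 0 ∧ ‖ϖ‖ < 1 ∧ ∀ i, ‖u i‖ < ‖ϖ‖ := by
  obtain ⟨r, hr0, hr1, hr⟩ := Eval.exists_radius hu
  have hq : (0 : ℝ) < (p : ℝ)⁻¹ := inv_pos.mpr (by exact_mod_cast hp.out.pos)
  have hq1 : (p : ℝ)⁻¹ < 1 := inv_lt_one_of_one_lt₀ (by exact_mod_cast hp.out.one_lt)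
  obtain ⟨k, hk⟩ := exists_pow_lt_of_lt_one hq hr1
  have hk0 : k ≠ 0 := fun h => by
    rw [h, pow_zero] at hk
    exact lt_irrefl _ (hk.trans hq1)
  obtain ⟨z, hz⟩ := IsAlgClosed.exists_pow_nat_eq (p : ℂ_[p]) (Nat.pos_of_ne_zero hk0)
  have hzk : ‖z‖ ^ k = (p : ℝ)⁻¹ := by rw [← norm_pow, hz, norm_natCast_padic]
  have h1 : r < ‖z‖ := lt_of_pow_lt_pow_left₀ k (norm_nonneg z) (hzk ▸ hk)
  refine ⟨z, norm_pos_iff.mp (hr0.trans_lt h1), ?_, fun i => (hr i).trans_lt h1⟩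
  refine lt_of_pow_lt_pow_left₀ k zero_le_one ?_
  rwa [hzk, one_pow]

lemma exists_wper_linear (hn : 1 ≤ n)
    (ht : ∀ u : Fin (n - 1) → ℂ_[p], Small u → ∀ r, Tendsto (fun k : ℕ => (p : ℂ_[p]) ^ k *
      (L p (vTuple n u) (n * k + r) / (p : ℂ_[p]) ^ (n * k + r))) atTop
        (𝓝 (wper p n (vTuple n u) r)))
    {u : Fin (n - 1) → ℂ_[p]} (hu : Small u) {ϖ : ℂ_[p]} (hϖ0 : ϖ ≠ 0) (hϖ : ‖ϖ‖ < 1)
    (hϖu : ∀ i, ‖u i‖ < ‖ϖ‖) (r : Fin n) :
    ∃ (lin : (Fin (n - 1) → ℂ_[p]) →ₗ[ℂ_[p]] ℂ_[p]) (K : ℝ), 0 ≤ K ∧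
      ∀ δ : Fin (n - 1) → ℂ_[p], ‖δ‖ < ‖ϖ‖ →
        ‖wper p n (vTuple n (u + δ)) r - wper p n (vTuple n u) r - lin δ‖ ≤ K * ‖δ‖ ^ 2 := by
  obtain ⟨Ω, B, hB, hΩ⟩ := exists_wSeries hn hϖ0 hϖ ht r
  have hpow : Tendsto (fun m : ℕ => (p : ℝ) ^ m) atTop atTop :=
    tendsto_pow_atTop_atTop_of_one_lt (by exact_mod_cast hp.out.one_lt)
  obtain ⟨m, hm⟩ := (hpow.eventually_ge_atTop B).exists
  set a : ℂ_[p] := (p : ℂ_[p]) ^ m with ha
  have ha0 : a ≠ 0 := pow_ne_zero _ (Nat.cast_ne_zero.mpr hp.out.ne_zero)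
  have hΩ' : IntSer (MvPowerSeries.C a * Ω) := fun d => by
    rw [coeff_C_mul, norm_mul, ha, norm_pow, norm_natCast_padic, inv_pow]
    have hpm : (0 : ℝ) < (p : ℝ) ^ m := pow_pos (by exact_mod_cast hp.out.pos) m
    rw [inv_mul_le_iff₀ hpm, mul_one]
    exact (hB d).trans hm
  set y : Fin (n - 1) → ℂ_[p] := ϖ⁻¹ • u with hy
  have hpos : 0 < ‖ϖ‖ := norm_pos_iff.mpr hϖ0
  have hys : Small y := fun i => by
    rw [hy, Pi.smul_apply, smul_eq_mul, norm_mul, norm_inv, inv_mul_lt_iff₀ hpos, mul_one]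
    exact hϖu i
  obtain ⟨hT, hTev⟩ := translate_spec hys hΩ'
  set T := translate y (MvPowerSeries.C a * Ω)
  refine ⟨(a⁻¹ * ϖ⁻¹) • linPart T, ‖a⁻¹‖ * ‖ϖ⁻¹‖ ^ 2, by positivity, fun δ hδ => ?_⟩
  set η : Fin (n - 1) → ℂ_[p] := ϖ⁻¹ • δ with hη
  have hη1 : ‖η‖ < 1 := by
    rw [hη, norm_smul, norm_inv, inv_mul_lt_iff₀ hpos, mul_one]
    exact hδ
  have hηs : Small η := fun i => (norm_le_pi_norm η i).trans_lt hη1
  have hval : ∀ z, Small z → ev z (MvPowerSeries.C a * Ω) =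
      a * wper p n (vTuple n (ϖ • z)) r := by
    intro z hz
    rw [show (ϖ • z) = fun i => ϖ * z i from rfl, hΩ z hz, ev, ev, ← tsum_mul_left]
    exact tsum_congr fun d => by rw [coeff_C_mul]; ring
  have hu' : ϖ • y = u := by rw [hy, smul_smul, mul_inv_cancel₀ hϖ0, one_smul]
  have hδ' : ϖ • η = δ := by rw [hη, smul_smul, mul_inv_cancel₀ hϖ0, one_smul]
  have hsum : Small (fun i => y i + η i) := fun i =>
    (IsUltrametricDist.norm_add_le_max _ _).trans_lt (max_lt (hys i) (hηs i))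
  have h1 : ev η T = a * wper p n (vTuple n (u + δ)) r := by
    rw [hTev η hηs, hval _ hsum, ← hu', ← hδ', ← smul_add]
    rfl
  have h0 : constantCoeff T = a * wper p n (vTuple n u) r := by
    rw [← Eval.ev_zero T, hTev _ Eval.small_zero]
    simp only [add_zero]
    rw [hval _ hys, hu']
  have h := linear_approx hT hη1
  rw [h1, h0, hη, map_smul, smul_eq_mul, norm_smul, mul_pow] at h
  have e : wper p n (vTuple n (u + δ)) r - wper p n (vTuple n u) r -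
      ((a⁻¹ * ϖ⁻¹) • linPart T) δ = a⁻¹ * (a * wper p n (vTuple n (u + δ)) r -
        a * wper p n (vTuple n u) r - ϖ⁻¹ * linPart T δ) := by
    rw [LinearMap.smul_apply, smul_eq_mul]
    field_simp
  rw [e, norm_mul, mul_assoc]
  exact mul_le_mul_of_nonneg_left h (norm_nonneg _)

/-- Linear approximation of the vector of quasi-periods. -/
lemma exists_wv_linear (hn : 1 ≤ n)
    (ht : ∀ u : Fin (n - 1) → ℂ_[p], Small u → ∀ r, Tendsto (fun k : ℕ => (p : ℂ_[p]) ^ k *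
      (L p (vTuple n u) (n * k + r) / (p : ℂ_[p]) ^ (n * k + r))) atTop
        (𝓝 (wper p n (vTuple n u) r)))
    {u : Fin (n - 1) → ℂ_[p]} (hu : Small u) :
    ∃ (lin : (Fin (n - 1) → ℂ_[p]) →ₗ[ℂ_[p]] (Fin n → ℂ_[p])) (K ε : ℝ), 0 ≤ K ∧ 0 < ε ∧
      ∀ δ : Fin (n - 1) → ℂ_[p], ‖δ‖ < ε →
        ‖wv n (u + δ) - wv n u - lin δ‖ ≤ K * ‖δ‖ ^ 2 := by
  obtain ⟨ϖ, hϖ0, hϖ, hϖu⟩ := exists_scale hu
  choose lin K hK hlin using fun r => exists_wper_linear hn ht hu hϖ0 hϖ hϖu r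
  refine ⟨LinearMap.pi lin, ∑ r, K r, ‖ϖ‖, Finset.sum_nonneg fun r _ => hK r,
    norm_pos_iff.mpr hϖ0, fun δ hδ => ?_⟩
  refine (pi_norm_le_iff_of_nonneg (mul_nonneg (Finset.sum_nonneg fun r _ => hK r)
    (pow_nonneg (norm_nonneg _) _))).mpr fun r => ?_
  refine (hlin r δ hδ).trans (mul_le_mul_of_nonneg_right ?_ (pow_nonneg (norm_nonneg _) _))
  exact Finset.single_le_sum (fun i _ => hK i) (Finset.mem_univ r)

end Vale.Agent.P217

end
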