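import Vale.Agent.P217.Eval
import Vale.Agent.P217.Formal.Log
import Vale.Agent.P217.HomPoints

/-!
# P217: values of logarithms along homomorphisms
-/

noncomputable section

namespace Vale.Agent.P217

open MvPowerSeries Filter Topology

variable {p : ℕ} [hp : Fact p.Prime]

lemma norm_natCast_padic : ‖(p : ℂ_[p])‖ = (p : ℝ)⁻¹ := by
  rw [← map_natCast (algebraMap ℚ_[p] ℂ_[p]) p]
  exact (PadicComplex.norm_extends' p _).trans Padic.norm_p

lemma norm_L_div_le {v : ℕ → ℂ_[p]} (hv : ∀ i, ‖v i‖ ≤ 1) (K : ℕ) :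
    ‖L p v K / (p : ℂ_[p]) ^ K‖ ≤ (p : ℝ) ^ K := by
  have hL : ‖L p v K‖ ≤ 1 := by
    have h := map_L p (unitBall ℂ_[p]).subtype (fun i => (⟨v i, hv i⟩ : unitBall ℂ_[p])) K
    rw [show (fun i => (unitBall ℂ_[p]).subtype (⟨v i, hv i⟩ : unitBall ℂ_[p])) = v from rfl] at h
    rw [← h]
    exact (L p (fun i => (⟨v i, hv i⟩ : unitBall ℂ_[p])) K).2
  rw [norm_div, norm_pow, norm_natCast_padic, inv_pow, div_inv_eq_mul]
  exact mul_le_of_le_one_left (by positivity) hL

lemma bound_pow_mul_sq {r : ℝ} (hr0 : 0 ≤ r) (hr1 : r < 1) :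
    ∃ B : ℝ, ∀ K : ℕ, (p : ℝ) ^ K * r ^ p ^ K ≤ B := by
  have h1 : Tendsto (fun M : ℕ => (M : ℝ) * r ^ M) atTop (𝓝 0) :=
    tendsto_self_mul_const_pow_of_lt_one hr0 hr1
  obtain ⟨B, hB⟩ := h1.bddAbove_range
  refine ⟨B, fun K => ?_⟩
  have := hB ⟨p ^ K, rfl⟩
  simpa using this

lemma intSer_pow {C : Type} [NormedField C] [IsUltrametricDist C] {σ : Type}
    {f : MvPowerSeries σ C} (hf : IntSer f) : ∀ m, IntSer (f ^ m)
  | 0 => by rw [pow_zero]; exact Eval.intSer_one
  | m + 1 => by rw [pow_succ]; exact Eval.intSer_mul (intSer_pow hf m) hf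

lemma ev_pow {C : Type} [NormedField C] [IsUltrametricDist C] [CompleteSpace C] {σ : Type}
    [Fintype σ] {f : MvPowerSeries σ C} (hf : IntSer f) {x : σ → C} (hx : Small x) :
    ∀ m, ev x (f ^ m) = ev x f ^ m
  | 0 => by
    rw [pow_zero, pow_zero, ← map_one (MvPowerSeries.C : C →+* MvPowerSeries σ C)]
    exact Eval.ev_C x 1
  | m + 1 => by rw [pow_succ, pow_succ, Eval.ev_mul (intSer_pow hf m) hf hx, ev_pow hf hx m]

/-- A homomorphism multiplies the values of the logarithms by its linear coefficient. -/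
lemma logVal_hom (hHom : HomTarget) {v v' : ℕ → ℂ_[p]} (hv' : ∀ i, ‖v' i‖ ≤ 1)
    {φ : PowerSeries ℂ_[p]} (hφ : IntSer φ) (hh : IsHom (law p v) (law p v') φ) {z : ℂ_[p]}
    (hz : ‖z‖ < 1) :
    logVal p v' (ev1 z φ) = PowerSeries.coeff 1 φ * logVal p v z := by
  have hid := (hHom p).1 ℂ_[p] v v' φ hh
  set b : ℕ → ℂ_[p] := fun K => L p v' K / (p : ℂ_[p]) ^ K with hb
  let a : ℕ → ℕ → ℂ_[p] := fun K m => b K * PowerSeries.coeff m (φ ^ p ^ K) * z ^ m
  have hzero : ∀ K m, m < p ^ K → PowerSeries.coeff m (φ ^ p ^ K) = 0 := fun K m h =>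
    coeff_pow_eq_zero (τ := Unit) hh.1 (d := Finsupp.single () m)
      (by rwa [Finsupp.degree_single])
  obtain ⟨r, hr, hr1⟩ : ∃ r, ‖z‖ ≤ r ^ 2 ∧ (0 ≤ r ∧ r < 1) :=
    ⟨Real.sqrt ‖z‖, (Real.sq_sqrt (norm_nonneg z)).ge,
      ⟨Real.sqrt_nonneg _, by rw [Real.sqrt_lt' one_pos]; simpa using hz⟩⟩
  obtain ⟨B, hB⟩ := bound_pow_mul_sq (p := p) hr1.1 hr1.2
  have hB0 : 0 ≤ B := le_trans (mul_nonneg (by positivity) (pow_nonneg hr1.1 _)) (hB 0)
  have hsum : Summable (Function.uncurry a) := by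
    refine Eval.summable_of_bound (fun q : ℕ × ℕ => max q.1 q.2) (fun N => ?_) hr1.1 hr1.2
      (B := B) fun q => ?_
    · exact ((Finset.range N).finite_toSet.prod (Finset.range N).finite_toSet).subset
        fun q (hq : max _ _ < N) => by
          simp only [Set.mem_prod, Finset.coe_range, Set.mem_Iio]
          exact ⟨(le_max_left _ _).trans_lt hq, (le_max_right _ _).trans_lt hq⟩
    · obtain ⟨K, m⟩ := q
      simp only [Function.uncurry, a]
      rcases lt_or_ge m (p ^ K) with hlt | hge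
      · rw [hzero K m hlt, mul_zero, zero_mul, norm_zero]
        exact mul_nonneg hB0 (pow_nonneg hr1.1 _)
      · have hK : K ≤ m := ((Nat.lt_pow_self hp.out.one_lt).le).trans hge
        rw [max_eq_right hK, norm_mul, norm_mul, norm_pow]
        calc ‖b K‖ * ‖PowerSeries.coeff m (φ ^ p ^ K)‖ * ‖z‖ ^ m
            ≤ (p : ℝ) ^ K * 1 * (r ^ 2) ^ m := by
              refine mul_le_mul (mul_le_mul (norm_L_div_le hv' K) ?_ (norm_nonneg _) (by positivity))
                (pow_le_pow_left₀ (norm_nonneg _) hr m) (by positivity) (by positivity)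
              exact intSer_pow (σ := Unit) hφ _ _
          _ = (p : ℝ) ^ K * r ^ m * r ^ m := by ring
          _ ≤ (p : ℝ) ^ K * r ^ p ^ K * r ^ m := by
              refine mul_le_mul_of_nonneg_right (mul_le_mul_of_nonneg_left ?_ (by positivity))
                (pow_nonneg hr1.1 _)
              exact pow_le_pow_of_le_one hr1.1 hr1.2.le hge
          _ ≤ B * r ^ m := mul_le_mul_of_nonneg_right (hB K) (pow_nonneg hr1.1 _)
  have hp0 : (p : ℂ_[p]) ≠ 0 := Nat.cast_ne_zero.mpr hp.out.ne_zero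
  have hcoef : ∀ (w : ℕ → ℂ_[p]) (K : ℕ),
      PowerSeries.coeff (p ^ K) (pLog p w) = L p w K / (p : ℂ_[p]) ^ K := fun w K => by
    rw [coeff_pLog_pow, Ring.inverse_eq_inv', inv_pow, div_eq_mul_inv]
  have hcol : ∀ m, ∑' K, a K m =
      PowerSeries.coeff 1 φ * PowerSeries.coeff m (pLog p v) * z ^ m := by
    intro m
    simp only [a]
    rw [tsum_mul_right, ← PowerSeries.coeff_C_mul, ← hid]
    congr 1
    rw [show PowerSeries.coeff m ((pLog p v').subst φ) =
      ∑ M ∈ Finset.range (m + 1), PowerSeries.coeff M (pLog p v') * PowerSeries.coeff m (φ ^ M) from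
        coeff_subst_sum (τ := Unit) _ hh.1 (d := Finsupp.single () m)
          (by rw [Finsupp.degree_single])]
    rw [← tsum_eq_sum (L := SummationFilter.unconditional ℕ)
      (f := fun M => PowerSeries.coeff M (pLog p v') * PowerSeries.coeff m (φ ^ M))
      (fun M hM => by
        rw [show PowerSeries.coeff m (φ ^ M) = 0 from
          coeff_pow_eq_zero (τ := Unit) hh.1 (d := Finsupp.single () m)
            (by rw [Finsupp.degree_single]; simpa using hM), mul_zero])]
    rw [← (Nat.pow_right_injective hp.out.two_le).tsum_eq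
      (f := fun M => PowerSeries.coeff M (pLog p v') * PowerSeries.coeff m (φ ^ M))]
    · exact tsum_congr fun K => by rw [hcoef]
    · intro M hM
      by_contra hne
      refine hM ?_
      simp only
      rw [coeff_pLog_other _ (fun J hJ => hne ⟨J, hJ.symm⟩), zero_mul]
  have hrow : ∀ K, ∑' m, a K m = b K * ev1 z φ ^ p ^ K := by
    intro K
    simp only [a, mul_assoc]
    rw [tsum_mul_left, ← Eval.ev1_eq_tsum]
    exact congrArg (b K * ·) (ev_pow (σ := Unit) hφ (fun _ => hz) _)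
  calc logVal p v' (ev1 z φ) = ∑' K, ∑' m, a K m := tsum_congr fun K => (hrow K).symm
    _ = ∑' m, ∑' K, a K m := hsum.tsum_comm.symm
    _ = PowerSeries.coeff 1 φ * logVal p v z := by
      simp only [hcol, mul_assoc]
      rw [tsum_mul_left, logVal, ← (Nat.pow_right_injective hp.out.two_le).tsum_eq
        (f := fun m => PowerSeries.coeff m (pLog p v) * z ^ m)]
      · exact congrArg _ (tsum_congr fun K => by rw [hcoef])
      · intro M hM
        by_contra hne
        refine hM ?_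
        simp only
        rw [coeff_pLog_other _ (fun J hJ => hne ⟨J, hJ.symm⟩), zero_mul]

end Vale.Agent.P217

end
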