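import Vale.Agent.P217.CharZero.Linear

/-!
# P217: an element vanishing on the orbit of a point in characteristic zero is zero
-/

noncomputable section

namespace Vale.Agent.P217

open MvPowerSeries Filter Topology
open scoped Matrix

variable {p : ℕ} [hp : Fact p.Prime] {k : Type} [Field k] [CharP k p] [Fintype k]
  {C : Type} [NormedField C] [IsUltrametricDist C] [CompleteSpace C] [CharP C p] [PerfectRing C p]
  {S : Sharp p C} {j : k →+* unitBall C} {n : ℕ}

lemma isEndo_X_honda : IsEndo (honda p n k) (PowerSeries.X : PowerSeries k) := by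
  have h := IsHom.pow_prime_pow (p := p) (honda p n k) (honda_fixed p n k) 0
  rwa [pow_zero, pow_one] at h

lemma hasMat_X : HasMat S j n (PowerSeries.X : PowerSeries k) 1 := by
  refine ⟨isEndo_X_honda, fun η hη => ?_⟩
  rw [Matrix.one_mulVec, PowerSeries.map_X]
  exact congrArg (pv S n) (Eval.ev_X (fun _ : Unit => η) ())

lemma hasMat_shift (hE : EvalTarget) (hP : PeriodTarget) (hn : 1 ≤ n)
    {b : PowerSeries k} {A : Matrix (Fin n) (Fin n) ℂ_[p]} (hb : HasMat S j n b A) (l : ℕ) :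
    HasMat S j n (b.subst ((PowerSeries.X : PowerSeries k) ^ p ^ (n * l)))
      ((p : ℂ_[p]) ^ l • A) := by
  refine ⟨IsHom.comp (IsHom.pow_prime_pow (p := p) (honda p n k) (honda_fixed p n k) (n * l)) hb.1,
    fun η hη => ?_⟩
  have hpow : ‖η ^ p ^ (n * l)‖ < 1 := by
    rw [norm_pow]
    exact pow_lt_one₀ (norm_nonneg _) hη (pow_ne_zero _ hp.out.ne_zero)
  have hX : IntSer ((PowerSeries.X : PowerSeries C) ^ p ^ (n * l) : MvPowerSeries Unit C) :=
    intSer_pow (σ := Unit) (Eval.intSer_X ()) _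
  have h0 : MvPowerSeries.constantCoeff
      (((PowerSeries.X : PowerSeries C) ^ p ^ (n * l)) : MvPowerSeries Unit C) = 0 := by
    show PowerSeries.constantCoeff ((PowerSeries.X : PowerSeries C) ^ p ^ (n * l)) = 0
    simp [zero_pow (pow_ne_zero _ hp.out.ne_zero)]
  have hev : ev (fun _ : Unit => η) ((PowerSeries.X : PowerSeries C) ^ p ^ (n * l)) =
      η ^ p ^ (n * l) := by
    refine (ev_pow (σ := Unit) (Eval.intSer_X ()) (fun _ => hη) _).trans ?_
    exact congrArg (· ^ p ^ (n * l)) (Eval.ev_X (fun _ : Unit => η) ())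
  have hq : PowerSeries.HasSubst ((PowerSeries.X : PowerSeries k) ^ p ^ (n * l)) :=
    PowerSeries.HasSubst.of_constantCoeff_zero'
      (by simp [zero_pow (pow_ne_zero _ hp.out.ne_zero)])
  have e : ev1 η (PowerSeries.map (jC j) (b.subst ((PowerSeries.X : PowerSeries k) ^ p ^ (n * l)))) =
      ev1 (η ^ p ^ (n * l)) (PowerSeries.map (jC j) b) := by
    have h1 : PowerSeries.map (jC j) (b.subst ((PowerSeries.X : PowerSeries k) ^ p ^ (n * l))) =
        (PowerSeries.map (jC j) b).subst ((PowerSeries.X : PowerSeries C) ^ p ^ (n * l)) := by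
      have h2 : MvPowerSeries.map (jC j) (b.subst ((PowerSeries.X : PowerSeries k) ^ p ^ (n * l))) =
          (PowerSeries.map (jC j) b).subst (MvPowerSeries.map (jC j)
            ((PowerSeries.X : PowerSeries k) ^ p ^ (n * l) : MvPowerSeries Unit k)) :=
        PowerSeries.map_subst hq b
      refine h2.trans (congrArg (fun a => (PowerSeries.map (jC j) b).subst a) ?_)
      show PowerSeries.map (jC j) ((PowerSeries.X : PowerSeries k) ^ p ^ (n * l)) = _
      rw [map_pow, PowerSeries.map_X]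
    rw [h1]
    show ev (fun _ : Unit => η) _ = _
    rw [ev_psSubst hE (mapjC_int j b) hX h0 (fun _ => hη), hev]
  rw [e, hb.2 _ hpow]
  have hper : pv S n (η ^ p ^ (n * l)) = (p : ℂ_[p]) ^ l • pv S n η := by
    funext r
    show per p n S (η ^ p ^ (n * l)) (r : ℕ) = (p : ℂ_[p]) ^ l * per p n S η (r : ℕ)
    rw [((hP p C S n hn).1 η _ hη).2.2.2.1 (n * l), ← Nat.cast_add, per_mod hP hn hη,
      Nat.add_mul_div_left _ _ (by omega : 0 < n), Nat.div_eq_of_lt r.2, zero_add,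
      Nat.add_mul_mod_self_left, Nat.mod_eq_of_lt r.2]
  rw [hper, Matrix.mulVec_smul, Matrix.smul_mulVec]

lemma hasMat_gDeep (hLaw : LawTarget) (hE : EvalTarget) (hP : PeriodTarget) (hn : 1 ≤ n)
    {b : PowerSeries k} {A : Matrix (Fin n) (Fin n) ℂ_[p]} (hb : HasMat S j n b A) (l : ℕ) :
    HasMat S j n (gDeep p n k b l) (1 + (p : ℂ_[p]) ^ l • A) :=
  HasMat.add hLaw hE hP hn hasMat_X (hasMat_shift hE hP hn hb l)

lemma hasMat_zero (hP : PeriodTarget) (hn : 1 ≤ n) : HasMat S j n (0 : PowerSeries k) 0 := by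
  refine ⟨IsHom.zero _ _, fun η hη => ?_⟩
  have h0 : ev1 η (PowerSeries.map (jC j) (0 : PowerSeries k)) = 0 := by simp [ev1, ev]
  rw [h0, Matrix.zero_mulVec]
  funext r
  have h := ((hP p C S n hn).1 (0 : C) (r : ℕ) (by simp)).2.2.1 0 (by simp)
  have hz : padd (honda p n C) (0 : C) 0 = 0 := by
    rw [padd, show (![(0 : C), 0] : Fin 2 → C) = fun _ => 0 by funext i; fin_cases i <;> rfl,
      Eval.ev_zero, FormalGroup.zero_constantCoeff]
  rw [hz] at h
  show per p n S (0 : C) (r : ℕ) = 0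
  exact left_eq_add.mp h

variable (S j) in
/-- Integral matrices of endomorphisms. -/
def endoMats (hLaw : LawTarget) (hE : EvalTarget) (hP : PeriodTarget) (hn : 1 ≤ n) :
    AddSubmonoid (Matrix (Fin n) (Fin n) ℂ_[p]) where
  carrier := {A | ∃ b, HasMat S j n b A ∧ MatInt A}
  zero_mem' := ⟨0, hasMat_zero hP hn, fun r s => by simp⟩
  add_mem' := by
    rintro A B ⟨a, ha, ha'⟩ ⟨b, hb, hb'⟩
    exact ⟨_, HasMat.add hLaw hE hP hn ha hb, fun r s =>
      (IsUltrametricDist.norm_add_le_max _ _).trans (max_le (ha' r s) (hb' r s))⟩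

omit [CompleteSpace C] [CharP C p] [PerfectRing C p] [Fintype k] in
lemma matInt_monMat (hn : 1 ≤ n) (ω : k) (t : ℕ) : MatInt (monMat S j hn ω t) := fun r s => by
  rw [monMat, Matrix.of_apply]
  split_ifs
  · rw [norm_mul, norm_pow, norm_pow, S.norm_eq, norm_natCast_padic]
    exact mul_le_one₀ (pow_le_one₀ (norm_nonneg _) (j ω).2) (by positivity)
      (pow_le_one₀ (by positivity) (inv_le_one_of_one_le₀ (by exact_mod_cast hp.out.pos)))
  · simp

lemma span_vecMul_monMat (hn : 1 ≤ n) (hk : Fintype.card k = p ^ n) {w : Fin n → ℂ_[p]}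
    (hw : w ≠ 0) :
    Submodule.span ℂ_[p] (Set.range fun q : k × ℕ => w ᵥ* monMat S j hn q.1 q.2) = ⊤ := by
  set W := Submodule.span ℂ_[p] (Set.range fun q : k × ℕ => w ᵥ* monMat S j hn q.1 q.2)
  by_contra hne
  obtain ⟨ψ, hψ, hψ0⟩ :=
    Submodule.exists_dual_map_eq_bot_of_lt_top (lt_top_iff_ne_top.mpr hne) inferInstance
  apply hψ
  set v : Fin n → ℂ_[p] := fun i => ψ (Pi.single i 1) with hv
  have hdot : ∀ x, ψ x = x ⬝ᵥ v := by
    intro x
    conv_lhs => rw [pi_eq_sum_univ' x, map_sum]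
    exact Finset.sum_congr rfl fun i _ => by rw [map_smul, smul_eq_mul]
  have hv0 : v = 0 := eq_zero_of_monMat (S := S) (j := j) hn hk hw fun ω t => by
    have hmem : ψ (w ᵥ* monMat S j hn ω t) ∈ W.map ψ :=
      Submodule.mem_map_of_mem (Submodule.subset_span ⟨(ω, t), rfl⟩)
    rw [hψ0, Submodule.mem_bot, hdot] at hmem
    rw [Matrix.dotProduct_mulVec]
    exact hmem
  refine LinearMap.ext fun x => ?_
  rw [hdot, hv0, dotProduct_zero, LinearMap.zero_apply]

omit [CompleteSpace C] [CharP C p] [PerfectRing C p] [Fintype k] in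
lemma iota_injective [PerfectRing k p] : Function.Injective (iota S j) := by
  rw [injective_iff_map_eq_zero]
  intro a ha
  by_contra h
  obtain ⟨m, b, rfl⟩ := WittVector.exists_eq_pow_p_mul' a h
  rw [map_mul, map_pow, map_natCast] at ha
  exact mul_ne_zero (pow_ne_zero _ (Nat.cast_ne_zero.mpr hp.out.ne_zero))
    (b.isUnit.map (iota S j)).ne_zero ha

lemma norm_vecMul_le {m : ℕ} (x : Fin m → ℂ_[p]) {E : Matrix (Fin m) (Fin m) ℂ_[p]} {e : ℝ}
    (he0 : 0 ≤ e) (he : ∀ r s, ‖E r s‖ ≤ e) : ‖x ᵥ* E‖ ≤ ‖x‖ * e := by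
  refine (pi_norm_le_iff_of_nonneg (mul_nonneg (norm_nonneg _) he0)).mpr fun s => ?_
  rw [Matrix.vecMul, dotProduct]
  refine IsUltrametricDist.norm_sum_le_of_forall_le_of_nonneg
    (mul_nonneg (norm_nonneg _) he0) fun r _ => ?_
  rw [norm_mul]
  exact mul_le_mul (norm_le_pi_norm x r) (he r s) (norm_nonneg _) (norm_nonneg _)

/-- An element vanishing on the orbit of `u` vanishes at a point near `u`, whose quasi-periods are
moved by a deep matrix. -/
lemma exists_deep_point (hLaw : LawTarget) (hE : EvalTarget) (hA : ActionTarget)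
    (hTh : ThetaTarget) (hP : PeriodTarget) (hHom : HomTarget) (hn : 1 ≤ n)
    (hk : Fintype.card k = p ^ n) (hπ : ∃ π : C, π ≠ 0 ∧ ‖π‖ < 1)
    {u : Fin (n - 1) → ℂ_[p]} (hu : Small u) {f : LT p n k}
    (hf : ∀ g γ φ, IsAut p n k g → IsAction p n k g 0 γ φ → evK (iota S j) u (γ f) = 0) :
    ∃ B B' : ℝ, 0 ≤ B ∧ 0 ≤ B' ∧ ∀ A ∈ endoMats S j hLaw hE hP hn, ∀ l : ℕ, 2 ≤ l →
      ∃ (δ : Fin (n - 1) → ℂ_[p]) (lam : ℂ_[p]) (E : Matrix (Fin n) (Fin n) ℂ_[p]),
        ‖δ‖ ≤ B * (p : ℝ)⁻¹ ^ (2 * l) ∧ evK (iota S j) (u + δ) f = 0 ∧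
        (∀ r s, ‖E r s‖ ≤ B' * (p : ℝ)⁻¹ ^ (4 * l)) ∧
        wv n (u + δ) ᵥ* (1 + (p : ℂ_[p]) ^ (3 * l) • A + E) = lam • wv n u := by
  obtain ⟨B, hB0, hB⟩ := exists_orbit_bound (k := k) S j hu
  obtain ⟨B', hB'0, hB'⟩ := exists_pow_matrix_bound (p := p) n
  refine ⟨B, B', hB0, hB'0, ?_⟩
  rintro A ⟨b, hb, hAint⟩ l hl
  obtain ⟨hg, hcongr⟩ := (hA p n hn k hk).2.2 b l (by omega) hb.1
  obtain ⟨γ, ⟨φ, hγ⟩, -⟩ := (hA p n hn k hk).1 _ 0 hg
  have hX := hcongr γ φ hγ
  have hC : ∀ a : WittVector p k, γ (MvPowerSeries.C a) = MvPowerSeries.C a := fun a => by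
    rw [hγ.1, Function.iterate_zero_apply]
  obtain ⟨hsmall, hev⟩ := evK_orbit (S := S) (j := j) hA hn hk hg hγ hu (p ^ (2 * l))
  set x := orbitPt (iota S j) γ u (p ^ (2 * l))
  obtain ⟨lam, hlam⟩ := wv_orbit (S := S) (j := j) hA hTh hP hHom hn hk hπ hg hγ hu
    (hasMat_gDeep hLaw hE hP hn hb l) (p ^ (2 * l))
  refine ⟨x - u, lam, (1 + (p : ℂ_[p]) ^ l • A) ^ p ^ (2 * l) - 1 - (p : ℂ_[p]) ^ (3 * l) • A,
    ?_, ?_, fun r s => ?_, ?_⟩
  · refine (pi_norm_le_iff_of_nonneg (by positivity)).mpr fun i => ?_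
    rw [Pi.sub_apply, show x i = evK (iota S j) u (gammaIter γ (p ^ (2 * l)) (MvPowerSeries.X i)) by
      rw [← hev, evK_X']]
    exact hB γ l (2 * l) hl hC hX i
  · rw [add_sub_cancel, hev]
    obtain ⟨P, hP'⟩ : ∃ P, p ^ (2 * l) = P + 1 :=
      ⟨p ^ (2 * l) - 1, by have := Nat.one_le_pow (2 * l) p hp.out.pos; omega⟩
    obtain ⟨g', φ', hg', hγ'⟩ := exists_action_iter hA hn hk hg hγ P
    rw [hP']
    exact hf g' _ φ' hg' hγ'
  · have h := hB' A hAint l (2 * l) (by omega) r s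
    rwa [show 2 * l + l = 3 * l by omega, show 2 * l + 2 * l = 4 * l by omega] at h
  · rw [add_sub_cancel, show 1 + (p : ℂ_[p]) ^ (3 * l) • A +
      ((1 + (p : ℂ_[p]) ^ l • A) ^ p ^ (2 * l) - 1 - (p : ℂ_[p]) ^ (3 * l) • A) =
      (1 + (p : ℂ_[p]) ^ l • A) ^ p ^ (2 * l) by abel]
    exact hlam

/-- A nonzero element of the Lubin-Tate ring does not vanish on an orbit. -/
lemma eq_zero_of_orbit (hLaw : LawTarget) (hE : EvalTarget) (hA : ActionTarget)
    (hTh : ThetaTarget) (hP : PeriodTarget) (hHom : HomTarget) (hn : 1 ≤ n)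
    (hk : Fintype.card k = p ^ n) (hπ : ∃ π : C, π ≠ 0 ∧ ‖π‖ < 1) [PerfectRing k p]
    {u : Fin (n - 1) → ℂ_[p]} (hu : Small u) {f : LT p n k}
    (hf : ∀ g γ φ, IsAut p n k g → IsAction p n k g 0 γ φ → evK (iota S j) u (γ f) = 0) :
    f = 0 := by
  have ht : ∀ u : Fin (n - 1) → ℂ_[p], Small u → ∀ r, Tendsto (fun i : ℕ => (p : ℂ_[p]) ^ i *
      (L p (vTuple n u) (n * i + r) / (p : ℂ_[p]) ^ (n * i + r))) atTop
        (𝓝 (wper p n (vTuple n u) r)) := fun u hu => ((hP p C S n hn).2.2.2 u hu).1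
  obtain ⟨lin, K, ε, hK0, hε, hlin⟩ := exists_wv_linear hn ht hu
  obtain ⟨B, B', hB0, hB'0, hpt⟩ := exists_deep_point hLaw hE hA hTh hP hHom hn hk hπ hu hf
  choose δ lam E hδ hzero hE' hrel using hpt
  set w := wv n u with hwdef
  have hw : w ≠ 0 := by
    obtain ⟨r, hr⟩ := exists_wper_ne hn hu (ht u hu)
    exact fun h => hr (congrFun h r)
  let Φ : (ℂ_[p] × (Fin (n - 1) → ℂ_[p])) →ₗ[ℂ_[p]] (Fin n → ℂ_[p]) :=
    (LinearMap.id.smulRight w).coprod (-lin)
  have hΦ : ∀ μ d, Φ (μ, d) = μ • w - lin d := fun μ d => by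
    simp [Φ, sub_eq_add_neg]
  let s : ℕ → ℂ_[p] := fun i => (p : ℂ_[p]) ^ (3 * (i + 2))
  have hs0 : ∀ i, s i ≠ 0 := fun i => pow_ne_zero _ (Nat.cast_ne_zero.mpr hp.out.ne_zero)
  set q : ℝ := (p : ℝ)⁻¹ with hq
  have hq0 : 0 < q := inv_pos.mpr (by exact_mod_cast hp.out.pos)
  have hq1 : q < 1 := inv_lt_one_of_one_lt₀ (by exact_mod_cast hp.out.one_lt)
  have hsn : ∀ i, ‖s i‖ = q ^ (3 * (i + 2)) := fun i => by
    rw [norm_pow, norm_natCast_padic]
  have hqm : ∀ m, 1 ≤ m → Tendsto (fun i : ℕ => q ^ (m * (i + 2))) atTop (𝓝 0) := fun m hm =>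
    (tendsto_pow_atTop_nhds_zero_of_lt_one hq0.le hq1).comp
      (tendsto_atTop_mono (fun i => by
        show i ≤ m * (i + 2)
        exact le_trans (Nat.le_add_right i 2) (Nat.le_mul_of_pos_left _ hm)) tendsto_id)
  have hs : Tendsto s atTop (𝓝 0) := by
    rw [tendsto_zero_iff_norm_tendsto_zero]
    simp only [hsn]
    exact hqm 3 (by omega)
  have hl : ∀ i : ℕ, 2 ≤ i + 2 := fun i => Nat.le_add_left 2 i
  have key : ∀ A (hA' : A ∈ endoMats S j hLaw hE hP hn),
      Tendsto (fun i => δ A hA' (i + 2) (hl i)) atTop (𝓝 0) ∧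
      Tendsto (fun i => Φ ((s i)⁻¹ * (lam A hA' (i + 2) (hl i) - 1),
        (s i)⁻¹ • δ A hA' (i + 2) (hl i))) atTop (𝓝 (w ᵥ* A)) := by
    intro A hA'
    set d := fun i => δ A hA' (i + 2) (hl i) with hd
    set F := fun i => E A hA' (i + 2) (hl i) with hF
    set x := fun i => wv n (u + d i) with hx
    have hdlim : Tendsto d atTop (𝓝 0) := by
      rw [tendsto_zero_iff_norm_tendsto_zero]
      exact squeeze_zero (fun i => norm_nonneg _) (fun i => hδ A hA' (i + 2) (hl i))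
        (by simpa using (hqm 2 (by omega)).const_mul B)
    refine ⟨hdlim, ?_⟩
    have hdn : Tendsto (fun i => ‖d i‖) atTop (𝓝 0) := by simpa using hdlim.norm
    have hev : ∀ᶠ i in atTop, ‖x i - w - lin (d i)‖ ≤ K * ‖d i‖ ^ 2 :=
      (hdn.eventually_lt_const hε).mono fun i hi => hlin _ hi
    have hR : Tendsto (fun i => x i - w - lin (d i)) atTop (𝓝 0) :=
      squeeze_zero_norm' hev (by simpa using (hdn.pow 2).const_mul K)
    have hlind : Tendsto (fun i => lin (d i)) atTop (𝓝 0) := by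
      have hc : Continuous lin := LinearMap.continuous_of_finiteDimensional lin
      have := (hc.tendsto 0).comp hdlim
      rwa [map_zero] at this
    have hxw : Tendsto (fun i => x i - w) atTop (𝓝 0) := by
      simpa using hR.add hlind
    have hR' : Tendsto (fun i => (s i)⁻¹ • (x i - w - lin (d i))) atTop (𝓝 0) := by
      refine squeeze_zero_norm' ?_ (by simpa using (hqm 1 le_rfl).const_mul (K * B ^ 2))
      filter_upwards [hev] with i hi
      rw [norm_smul, norm_inv, hsn]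
      refine (mul_le_mul_of_nonneg_left (hi.trans (mul_le_mul_of_nonneg_left
        (pow_le_pow_left₀ (norm_nonneg _) (hδ A hA' (i + 2) (hl i)) 2) hK0))
        (by positivity)).trans_eq ?_
      have hne : q ^ (3 * (i + 2)) ≠ 0 := pow_ne_zero _ hq0.ne'
      field_simp
      ring
    have hxE : Tendsto (fun i => (s i)⁻¹ • (x i ᵥ* F i)) atTop (𝓝 0) := by
      have hxn : Tendsto (fun i => ‖x i‖) atTop (𝓝 ‖w‖) := by
        have := (hxw.add_const w).norm
        simpa using this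
      refine squeeze_zero_norm' (Eventually.of_forall fun i => ?_)
        (by simpa using (hxn.mul ((hqm 1 le_rfl).const_mul B')))
      rw [norm_smul, norm_inv, hsn]
      refine (mul_le_mul_of_nonneg_left (norm_vecMul_le _ (by positivity)
        (hE' A hA' (i + 2) (hl i))) (by positivity)).trans_eq ?_
      have hne : q ^ (3 * (i + 2)) ≠ 0 := pow_ne_zero _ hq0.ne'
      field_simp
      ring
    have hcontA : Tendsto (fun i => (x i - w) ᵥ* A) atTop (𝓝 0) := by
      have hc : Continuous fun v : Fin n → ℂ_[p] => v ᵥ* A :=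
        LinearMap.continuous_of_finiteDimensional (Matrix.vecMulLinear A)
      have := (hc.tendsto 0).comp hxw
      rwa [Matrix.zero_vecMul] at this
    have hsum := ((hR'.add hcontA).add hxE).add_const (w ᵥ* A)
    simp only [add_zero, zero_add] at hsum
    refine hsum.congr fun i => ?_
    have h := hrel A hA' (i + 2) (hl i)
    rw [Matrix.vecMul_add, Matrix.vecMul_add, Matrix.vecMul_one, Matrix.vecMul_smul] at h
    change x i + s i • (x i ᵥ* A) + x i ᵥ* F i = lam A hA' (i + 2) (hl i) • w at h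
    rw [hΦ, map_smul, mul_smul, ← smul_sub, sub_smul, one_smul, ← h, Matrix.sub_vecMul]
    rw [show x i + s i • (x i ᵥ* A) + x i ᵥ* F i - w - lin (d i) =
        (x i - w - lin (d i)) + s i • (x i ᵥ* A) + x i ᵥ* F i by abel, smul_add, smul_add,
      inv_smul_smul₀ (hs0 i)]
    abel
  have hmem : ∀ A (_ : A ∈ endoMats S j hLaw hE hP hn), w ᵥ* A ∈ LinearMap.range Φ :=
    fun A hA' => (Submodule.closed_of_finiteDimensional (LinearMap.range Φ)).mem_of_tendsto
      (key A hA').2 (Eventually.of_forall fun i => LinearMap.mem_range_self Φ _)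
  have hmon : ∀ ω t, monMat S j hn ω t ∈ endoMats S j hLaw hE hP hn := fun ω t =>
    ⟨_, hasMat_monomial hP hn hk ω t, matInt_monMat hn ω t⟩
  have hspan := span_vecMul_monMat (S := S) (j := j) hn hk hw
  have hsurj : Function.Surjective Φ := by
    rw [← LinearMap.range_eq_top, eq_top_iff, ← hspan, Submodule.span_le]
    rintro _ ⟨⟨ω, t⟩, rfl⟩
    exact hmem _ (hmon ω t)
  have hinj : Function.Injective Φ :=
    (LinearMap.injective_iff_surjective_of_finrank_eq_finrank (by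
      rw [Module.finrank_prod, Module.finrank_self, Module.finrank_fintype_fun_eq_card,
        Module.finrank_fintype_fun_eq_card, Fintype.card_fin, Fintype.card_fin]
      omega)).mpr hsurj
  set e := LinearEquiv.ofBijective Φ ⟨hinj, hsurj⟩ with he
  let cl : (Fin n → ℂ_[p]) →ₗ[ℂ_[p]] (Fin (n - 1) → ℂ_[p]) :=
    (LinearMap.snd ℂ_[p] ℂ_[p] (Fin (n - 1) → ℂ_[p])).comp e.symm.toLinearMap
  let cA : Matrix (Fin n) (Fin n) ℂ_[p] →+ (Fin (n - 1) → ℂ_[p]) :=
    AddMonoidHom.mk' (fun A => cl (w ᵥ* A)) fun A A' => by rw [Matrix.vecMul_add, map_add]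
  set D := (endoMats S j hLaw hE hP hn).map cA with hD
  have hDspan : Submodule.span ℂ_[p] (D : Set (Fin (n - 1) → ℂ_[p])) = ⊤ := by
    have hcl : LinearMap.range cl = ⊤ := LinearMap.range_eq_top.mpr
      (Prod.snd_surjective.comp e.symm.surjective)
    rw [eq_top_iff, ← hcl, ← Submodule.map_top, ← hspan, Submodule.map_span, Submodule.span_le]
    rintro _ ⟨_, ⟨⟨ω, t⟩, rfl⟩, rfl⟩
    exact Submodule.subset_span ⟨_, hmon ω t, rfl⟩
  set fι := MvPowerSeries.map (iota S j) f with hfι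
  have hfint : IntSer fι := intSer_map (norm_iota_le S j) f
  obtain ⟨hT, hTev⟩ := translate_spec hu hfint
  have hT0 : translate u fι = 0 := by
    refine eq_zero_of_directions hT D hDspan fun c hc => ?_
    obtain ⟨A, hA', rfl⟩ := hc
    obtain ⟨h0, hlim⟩ := key A hA'
    refine ⟨fun i => δ A hA' (i + 2) (hl i), s, hs0, hs, ?_, ?_⟩
    · have hc' : Continuous cl := LinearMap.continuous_of_finiteDimensional cl
      refine ((hc'.tendsto _).comp hlim).congr fun i => ?_
      show (e.symm (Φ _)).2 = _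
      rw [show Φ ((s i)⁻¹ * (lam A hA' (i + 2) (hl i) - 1), (s i)⁻¹ • δ A hA' (i + 2) (hl i)) =
        e ((s i)⁻¹ * (lam A hA' (i + 2) (hl i) - 1), (s i)⁻¹ • δ A hA' (i + 2) (hl i)) from rfl,
        LinearEquiv.symm_apply_apply]
    · have hn' : Tendsto (fun i => ‖δ A hA' (i + 2) (hl i)‖) atTop (𝓝 0) := by
        simpa using h0.norm
      filter_upwards [hn'.eventually_lt_const one_pos] with i hi
      rw [hTev _ fun l => (norm_le_pi_norm _ l).trans_lt hi]
      exact hzero A hA' (i + 2) (hl i)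
  have hπp : ∃ π : ℂ_[p], π ≠ 0 ∧ ‖π‖ < 1 :=
    ⟨p, Nat.cast_ne_zero.mpr hp.out.ne_zero, by rw [norm_natCast_padic]; exact hq1⟩
  have hfι0 : fι = 0 := eq_zero_of_vanish hfint hπp fun y hy => by
    have hyu : Small (y - u) := fun i =>
      (Eval.norm_sub_le_max' _ _).trans_lt (max_lt (hy i) (hu i))
    have h := hTev (y - u) hyu
    rw [hT0] at h
    rw [show (fun i => u i + (y - u) i) = y by funext i; simp] at h
    rw [← h]
    simp [ev]
  refine MvPowerSeries.ext fun d => ?_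
  have h := congrArg (coeff d) hfι0
  rw [hfι, coeff_map, map_zero, ← map_zero (iota S j)] at h
  rw [map_zero]
  exact iota_injective h

/-- The target `CharZeroTarget`. -/
theorem charZeroTarget (hLaw : LawTarget) (hE : EvalTarget) (hA : ActionTarget)
    (hTh : ThetaTarget) (hP : PeriodTarget) (hHom : HomTarget) : CharZeroTarget := by
  intro p _ k _ _ _ T n hn hk
  letI := T.nf
  letI := T.ult
  intro j u hu f hf
  have := T.complete
  have := T.charP
  have := T.perfect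
  have hπ : ∃ π : T.C, π ≠ 0 ∧ ‖π‖ < 1 := by
    obtain ⟨π, h0, h1⟩ := NormedField.exists_norm_lt_one T.C
    exact ⟨π, norm_pos_iff.mp h0, h1⟩
  exact eq_zero_of_orbit (S := T.S) (j := j) hLaw hE hA hTh hP hHom hn hk hπ hu hf

end Vale.Agent.P217

end
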