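import Vale.Agent.P217.CharZero.Vectors
import Mathlib.Algebra.MvPolynomial.Funext

/-!
# P217: quasi-periods as series, translations, and vanishing along many directions
-/

noncomputable section

namespace Vale.Agent.P217

open MvPowerSeries Filter Topology

section Translate

variable {C : Type} [NormedField C] [IsUltrametricDist C] [CompleteSpace C] {σ : Type} [Fintype σ]

/-- The series `Y ↦ f (x + Y)`. -/
def translate (x : σ → C) (f : MvPowerSeries σ C) : MvPowerSeries σ C :=
  evLeft x (f.subst fun i =>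
    (MvPowerSeries.X (Sum.inl i) + MvPowerSeries.X (Sum.inr i) : MvPowerSeries (σ ⊕ σ) C))

lemma intSer_sumX (i : σ) :
    IntSer (MvPowerSeries.X (Sum.inl i) + MvPowerSeries.X (Sum.inr i) : MvPowerSeries (σ ⊕ σ) C) ∧
      constantCoeff (MvPowerSeries.X (Sum.inl i) + MvPowerSeries.X (Sum.inr i) :
        MvPowerSeries (σ ⊕ σ) C) = 0 :=
  ⟨Eval.intSer_add (Eval.intSer_X _) (Eval.intSer_X _), by simp⟩

lemma translate_spec {x : σ → C} (hx : Small x) {f : MvPowerSeries σ C} (hf : IntSer f) :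
    IntSer (translate x f) ∧
      ∀ y, Small y → ev y (translate x f) = ev (fun i => x i + y i) f := by
  have hint := Eval.intSer_subst (fun i => intSer_sumX (C := C) i) hf
  refine ⟨Eval.intSer_evLeft hint hx, fun y hy => ?_⟩
  rw [translate, Eval.ev_evLeft hint hx hy,
    Eval.ev_subst (fun i => intSer_sumX (C := C) i) hf (Eval.small_elim hx hy)]
  congr 1
  funext i
  rw [Eval.ev_add (Eval.intSer_X _) (Eval.intSer_X _) (Eval.small_elim hx hy), Eval.ev_X,
    Eval.ev_X]
  rfl

/-- The terms of degree `m`. -/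
lemma finite_deg_eq (m : ℕ) : {d : σ →₀ ℕ | deg d = m}.Finite :=
  (Eval.finite_deg_lt (m + 1)).subset fun d (hd : deg d = m) => by
    show deg d < m + 1
    omega

/-- The homogeneous part of degree `m`. -/
def homPart (T : MvPowerSeries σ C) (m : ℕ) : MvPolynomial σ C :=
  ∑ d ∈ (finite_deg_eq (σ := σ) m).toFinset, MvPolynomial.monomial d (coeff d T)

lemma eval_homPart (T : MvPowerSeries σ C) (m : ℕ) (t : σ → C) :
    MvPolynomial.eval t (homPart T m) =
      ∑ d ∈ (finite_deg_eq (σ := σ) m).toFinset, coeff d T * mon t d := by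
  rw [homPart, map_sum]
  exact Finset.sum_congr rfl fun d _ => by rw [MvPolynomial.eval_monomial]; rfl

/-- A series with vanishing terms below degree `m` is its degree `m` part up to order `m + 1`. -/
lemma norm_ev_sub_homPart {T : MvPowerSeries σ C} (hT : IntSer T) {m : ℕ}
    (hlow : ∀ d, deg d < m → coeff d T = 0) {y : σ → C} {r : ℝ} (hr0 : 0 ≤ r) (hr1 : r < 1)
    (hy : ∀ i, ‖y i‖ ≤ r) :
    ‖ev y T - MvPolynomial.eval y (homPart T m)‖ ≤ r ^ (m + 1) := by
  classical
  have hs : Small y := fun i => (hy i).trans_lt hr1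
  set s := (finite_deg_eq (σ := σ) m).toFinset
  rw [eval_homPart, ev, ← (Eval.summable_ev hT hs).sum_add_tsum_compl (s := s), add_sub_cancel_left]
  refine Eval.norm_tsum_le (pow_nonneg hr0 _) fun d => ?_
  obtain ⟨d, hd⟩ := d
  simp only [Set.mem_compl_iff, Finset.mem_coe, s, Set.Finite.mem_toFinset, Set.mem_setOf_eq] at hd
  rcases lt_or_gt_of_ne hd with h | h
  · rw [hlow d h, zero_mul, norm_zero]
    exact pow_nonneg hr0 _
  · rw [norm_mul]
    refine (mul_le_of_le_one_left (norm_nonneg _) (hT d)).trans ?_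
    exact (Eval.norm_mon_le hy d).trans (pow_le_pow_of_le_one hr0 hr1.le h)

lemma mon_smul (s : C) (y : σ → C) (d : σ →₀ ℕ) : mon (s • y) d = s ^ deg d * mon y d := by
  simp only [mon, Pi.smul_apply, smul_eq_mul, mul_pow, deg]
  rw [Finsupp.prod_mul, Finsupp.prod, Finset.prod_pow_eq_pow_sum]
  rfl

lemma eval_homPart_smul (T : MvPowerSeries σ C) (m : ℕ) (s : C) (y : σ → C) :
    MvPolynomial.eval (s • y) (homPart T m) = s ^ m * MvPolynomial.eval y (homPart T m) := by
  rw [eval_homPart, eval_homPart, Finset.mul_sum]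
  refine Finset.sum_congr rfl fun d hd => ?_
  rw [Set.Finite.mem_toFinset, Set.mem_setOf_eq] at hd
  rw [mon_smul, hd]
  ring

/-- A polynomial that vanishes on a submonoid spanning the whole space is zero. -/
lemma poly_eq_zero_of_span [CharZero C] (D : AddSubmonoid (σ → C))
    (hD : Submodule.span C (D : Set (σ → C)) = ⊤) {P : MvPolynomial σ C}
    (h : ∀ c ∈ D, MvPolynomial.eval c P = 0) : P = 0 := by
  classical
  have : Infinite C := Infinite.of_injective (Nat.cast : ℕ → C) Nat.cast_injective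
  refine MvPolynomial.funext fun v => ?_
  rw [map_zero]
  have hv : v ∈ Submodule.span C (D : Set (σ → C)) := hD ▸ Submodule.mem_top
  obtain ⟨N, t, c, hv'⟩ : ∃ (N : ℕ) (t : Fin N → C) (c : Fin N → D), ∑ i, t i • (c i : σ → C) = v := by
    obtain ⟨N, t, g, hg⟩ := Submodule.mem_span_set'.mp hv
    exact ⟨N, t, g, hg⟩
  set L : σ → MvPolynomial (Fin N) C := fun j =>
    ∑ i, MvPolynomial.C ((c i : σ → C) j) * MvPolynomial.X i with hL
  set R := MvPolynomial.aeval L P with hR
  have hev : ∀ s : Fin N → C, MvPolynomial.eval s R =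
      MvPolynomial.eval (∑ i, s i • (c i : σ → C)) P := by
    intro s
    have hcomp : (MvPolynomial.eval s).comp (MvPolynomial.aeval L).toRingHom =
        MvPolynomial.eval (∑ i, s i • (c i : σ → C)) :=
      MvPolynomial.ringHom_ext (fun a => by simp) fun j => by
        simp [hL, Finset.sum_apply, mul_comm]
    exact congrArg (fun φ : MvPolynomial σ C →+* C => φ P) hcomp
  have hR0 : R = 0 := by
    refine MvPolynomial.funext_set (fun _ => Set.range (Nat.cast : ℕ → C))
      (fun _ => Set.infinite_range_of_injective Nat.cast_injective) fun s hs => ?_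
    rw [map_zero, hev]
    refine h _ (D.sum_mem fun i _ => ?_)
    obtain ⟨a, ha⟩ := hs i (Set.mem_univ i)
    rw [← ha, Nat.cast_smul_eq_nsmul]
    exact D.nsmul_mem (c i).2 a
  rw [← hv', ← hev, hR0, map_zero]

/-- A series vanishing along sequences with a spanning monoid of directions is zero. -/
lemma eq_zero_of_directions [CharZero C] {T : MvPowerSeries σ C} (hT : IntSer T)
    (D : AddSubmonoid (σ → C)) (hD : Submodule.span C (D : Set (σ → C)) = ⊤)
    (h : ∀ c ∈ D, ∃ (δ : ℕ → σ → C) (s : ℕ → C), (∀ i, s i ≠ 0) ∧ Tendsto s atTop (𝓝 0) ∧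
      Tendsto (fun i => (s i)⁻¹ • δ i) atTop (𝓝 c) ∧ ∀ᶠ i in atTop, ev (δ i) T = 0) : T = 0 := by
  suffices ∀ m, ∀ d, deg d < m → coeff d T = 0 from
    MvPowerSeries.ext fun d => by rw [this (deg d + 1) d (Nat.lt_succ_self _), map_zero]
  intro m
  induction m with
  | zero => exact fun d hd => absurd hd (Nat.not_lt_zero _)
  | succ m ih =>
    have hQ : homPart T m = 0 := by
      refine poly_eq_zero_of_span D hD fun c hc => ?_
      obtain ⟨δ, s, hs0, hs, hlim, hvan⟩ := h c hc
      set Q := fun t : σ → C => MvPolynomial.eval t (homPart T m) with hQdef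
      have hcont : Continuous Q := by
        simp only [hQdef, eval_homPart, mon, Finsupp.prod]
        fun_prop
      have h1 : Tendsto (fun i => Q ((s i)⁻¹ • δ i)) atTop (𝓝 (Q c)) :=
        (hcont.tendsto c).comp hlim
      have h2 : Tendsto (fun i => (‖(s i)⁻¹ • δ i‖) ^ (m + 1) * ‖s i‖) atTop (𝓝 0) := by
        simpa using (hlim.norm.pow (m + 1)).mul hs.norm
      have h3 : Tendsto (fun i => ‖δ i‖) atTop (𝓝 0) := by
        have := hs.norm.mul hlim.norm
        rw [norm_zero, zero_mul] at this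
        refine this.congr fun i => ?_
        rw [norm_smul, norm_inv, ← mul_assoc, mul_inv_cancel₀ (norm_ne_zero_iff.mpr (hs0 i)),
          one_mul]
      refine tendsto_nhds_unique h1 (squeeze_zero_norm' ?_ h2)
      filter_upwards [hvan, h3.eventually_lt_const one_pos] with i hi hsmall
      have h4 := norm_ev_sub_homPart hT ih (norm_nonneg (δ i)) hsmall fun l => norm_le_pi_norm (δ i) l
      rw [hi, zero_sub, norm_neg] at h4
      simp only [hQdef, eval_homPart_smul, norm_mul, norm_pow, norm_inv]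
      rw [norm_smul, norm_inv]
      have hpos : 0 < ‖s i‖ := norm_pos_iff.mpr (hs0 i)
      calc ‖s i‖⁻¹ ^ m * ‖MvPolynomial.eval (δ i) (homPart T m)‖
          ≤ ‖s i‖⁻¹ ^ m * ‖δ i‖ ^ (m + 1) := mul_le_mul_of_nonneg_left h4 (by positivity)
        _ = (‖s i‖⁻¹ * ‖δ i‖) ^ (m + 1) * ‖s i‖ := by
          rw [mul_pow, pow_succ ‖s i‖⁻¹ m, mul_comm (‖s i‖⁻¹ ^ m * ‖s i‖⁻¹), mul_assoc, mul_assoc,
            inv_mul_cancel₀ hpos.ne', mul_one, mul_comm]
    intro d hd
    rcases Nat.lt_succ_iff_lt_or_eq.mp hd with h' | h'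
    · exact ih d h'
    · classical
      have := congrArg (MvPolynomial.coeff d) hQ
      rw [homPart, MvPolynomial.coeff_sum, Finset.sum_eq_single d] at this
      · simpa using this
      · intro e _ he
        rw [MvPolynomial.coeff_monomial, if_neg he]
      · intro hd'
        exact absurd (by simpa using h') hd'

/-- A series that vanishes on the whole open polydisc is zero. -/
lemma eq_zero_of_vanish [CharZero C] {T : MvPowerSeries σ C} (hT : IntSer T)
    (hπ : ∃ π : C, π ≠ 0 ∧ ‖π‖ < 1) (h : ∀ y, Small y → ev y T = 0) : T = 0 := by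
  classical
  obtain ⟨π, hπ0, hπ1⟩ := hπ
  refine eq_zero_of_directions hT ⊤ (by simp) fun c _ => ?_
  refine ⟨fun i => π ^ i • c, fun i => π ^ i, fun i => pow_ne_zero _ hπ0,
    tendsto_pow_atTop_nhds_zero_of_norm_lt_one hπ1, ?_, ?_⟩
  · refine tendsto_const_nhds.congr fun i => ?_
    rw [smul_smul, inv_mul_cancel₀ (pow_ne_zero _ hπ0), one_smul]
  · have h1 : Tendsto (fun i => π ^ i • c) atTop (𝓝 0) := by
      simpa using (tendsto_pow_atTop_nhds_zero_of_norm_lt_one hπ1).smul_const c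
    have h2 : ∀ᶠ i in atTop, ‖π ^ i • c‖ < 1 := by
      have := h1.norm
      rw [norm_zero] at this
      exact this.eventually_lt_const one_pos
    exact h2.mono fun i hi => h _ fun l => (norm_le_pi_norm _ l).trans_lt hi

end Translate

section WSeries

variable {p : ℕ} [hp : Fact p.Prime] {n : ℕ}

/-- Coefficients of norm at most `B`. -/
def Bd {σ : Type*} (f : MvPowerSeries σ ℂ_[p]) (B : ℝ) : Prop :=
  ∀ d, ‖coeff d f‖ ≤ B

lemma Bd.mul {σ : Type} {f g : MvPowerSeries σ ℂ_[p]} {B B' : ℝ} (hB : 0 ≤ B) (hB' : 0 ≤ B')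
    (hf : Bd f B) (hg : Bd g B') : Bd (f * g) (B * B') := fun d => by
  classical
  rw [coeff_mul]
  refine IsUltrametricDist.norm_sum_le_of_forall_le_of_nonneg (mul_nonneg hB hB') fun q _ => ?_
  rw [norm_mul]
  exact mul_le_mul (hf _) (hg _) (norm_nonneg _) hB

lemma Bd.pow {σ : Type} {f : MvPowerSeries σ ℂ_[p]} {B : ℝ} (hB : 0 ≤ B) (hf : Bd f B) :
    ∀ m, Bd (f ^ m) (B ^ m)
  | 0 => by rw [pow_zero, pow_zero]; exact Eval.intSer_one
  | m + 1 => by
    rw [pow_succ, pow_succ]
    exact Bd.mul (pow_nonneg hB _) hB (Bd.pow hB hf m) hf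

lemma summable_bd {σ : Type} [Fintype σ] {f : MvPowerSeries σ ℂ_[p]} {B : ℝ} (hf : Bd f B)
    {x : σ → ℂ_[p]} (hx : Small x) : Summable fun d => coeff d f * mon x d := by
  obtain ⟨r, hr0, hr1, hr⟩ := Eval.exists_radius hx
  have hB : 0 ≤ B := le_trans (norm_nonneg _) (hf 0)
  refine Eval.summable_of_bound deg Eval.finite_deg_lt hr0 hr1 (B := B) fun d => ?_
  rw [norm_mul]
  exact mul_le_mul (hf d) (Eval.norm_mon_le hr d) (norm_nonneg _) hB

lemma norm_ev_bd {σ : Type} [Fintype σ] {f : MvPowerSeries σ ℂ_[p]} {B : ℝ} (hf : Bd f B)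
    {x : σ → ℂ_[p]} (hx : Small x) : ‖ev x f‖ ≤ B := by
  have hB : 0 ≤ B := le_trans (norm_nonneg _) (hf 0)
  refine Eval.norm_tsum_le hB fun d => ?_
  rw [norm_mul]
  exact (mul_le_mul (hf d) (Eval.norm_mon_le_one hx d) (norm_nonneg _) hB).trans (mul_one B).le

variable (ϖ : ℂ_[p]) (n)

/-- The variables, scaled by `ϖ`. -/
def scaledVar : ℕ → MvPowerSeries (Fin (n - 1)) ℂ_[p] :=
  vTuple n fun i => MvPowerSeries.C ϖ * MvPowerSeries.X i

/-- The coefficient `l_K` as a series in the scaled variables. -/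
def bSer (K : ℕ) : MvPowerSeries (Fin (n - 1)) ℂ_[p] :=
  MvPowerSeries.C (((p : ℂ_[p]) ^ K)⁻¹) * L p (scaledVar n ϖ) K

variable {n ϖ}

lemma bd_scaledVar (hϖ : ‖ϖ‖ ≤ 1) (i : ℕ) :
    Bd (scaledVar n ϖ i) (if 1 ≤ i ∧ i < n then ‖ϖ‖ else 1) := fun d => by
  classical
  unfold scaledVar vTuple
  by_cases h : 1 ≤ i ∧ i < n
  · rw [dif_pos h, if_pos h, coeff_C_mul, norm_mul, coeff_X]
    split_ifs <;> simp
  · rw [dif_neg h, if_neg h]
    split_ifs
    · exact Eval.intSer_one d
    · exact Eval.intSer_zero d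

lemma bd_bSer (hϖ : ‖ϖ‖ ≤ 1) (K : ℕ) : Bd (bSer n ϖ K) ((p : ℝ) ^ K) := fun d => by
  have hL : Bd (L p (scaledVar n ϖ) K) 1 := by
    induction K using Nat.strong_induction_on generalizing d with
    | _ K ih =>
      rcases K with _ | K
      · rw [L_zero]; exact Eval.intSer_one
      · rw [L_succ]
        intro e
        rw [map_sum]
        refine IsUltrametricDist.norm_sum_le_of_forall_le_of_nonneg zero_le_one fun i hi => ?_
        have h1 : Bd (scaledVar n ϖ (i + 1)) 1 := fun e => (bd_scaledVar hϖ (i + 1) e).trans (by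
          split_ifs
          · exact hϖ
          · exact le_rfl)
        have h2 : Bd ((p : MvPowerSeries (Fin (n - 1)) ℂ_[p]) ^ i) 1 := by
          intro e
          classical
          rw [← map_natCast (MvPowerSeries.C : ℂ_[p] →+* _), ← map_pow, coeff_C]
          split_ifs
          · rw [norm_pow, norm_natCast_padic]
            exact pow_le_one₀ (by positivity) (inv_le_one_of_one_le₀ (by exact_mod_cast hp.out.pos))
          · simp
        have h3 := ((h1.pow zero_le_one (p ^ (K - i))).mul (by simp) zero_le_one h2).mul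
          (by simp) zero_le_one (fun e => ih (K - i) (by rw [Finset.mem_range] at hi; omega) e e)
        simpa using h3 e
  rw [bSer, coeff_C_mul, norm_mul, norm_inv, norm_pow, norm_natCast_padic, inv_pow, inv_inv]
  exact mul_le_of_le_one_right (by positivity) (hL d)

lemma p_mul_bSer (hn : 1 ≤ n) {K : ℕ} (hK : n ≤ K) :
    MvPowerSeries.C (p : ℂ_[p]) * bSer n ϖ K = bSer n ϖ (K - n) +
      ∑ i ∈ Finset.range (n - 1),
        scaledVar n ϖ (i + 1) ^ p ^ (K - (i + 1)) * bSer n ϖ (K - (i + 1)) := by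
  obtain ⟨K, rfl⟩ : ∃ K', K = K' + 1 := ⟨K - 1, by omega⟩
  have hp0 : (p : ℂ_[p]) ≠ 0 := Nat.cast_ne_zero.mpr hp.out.ne_zero
  rw [bSer, L_succ, Finset.mul_sum, Finset.mul_sum]
  have hterm : ∀ i ∈ Finset.range (K + 1),
      MvPowerSeries.C (p : ℂ_[p]) * (MvPowerSeries.C (((p : ℂ_[p]) ^ (K + 1))⁻¹) *
        (scaledVar n ϖ (i + 1) ^ p ^ (K - i) * (p : MvPowerSeries (Fin (n - 1)) ℂ_[p]) ^ i *
          L p (scaledVar n ϖ) (K - i))) =
      scaledVar n ϖ (i + 1) ^ p ^ (K - i) * bSer n ϖ (K - i) := by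
    intro i hi
    rw [Finset.mem_range] at hi
    obtain ⟨d, rfl⟩ : ∃ d, K = i + d := ⟨K - i, by omega⟩
    rw [show i + d - i = d by omega, bSer, ← map_natCast (MvPowerSeries.C : ℂ_[p] →+* _)]
    have : (p : ℂ_[p]) * (((p : ℂ_[p]) ^ (i + d + 1))⁻¹ * (p : ℂ_[p]) ^ i) = ((p : ℂ_[p]) ^ d)⁻¹ := by
      rw [show i + d + 1 = i + 1 + d by omega, pow_add, pow_succ]
      field_simp
    rw [← this, map_mul, map_mul, map_pow]
    ring
  rw [Finset.sum_congr rfl hterm, ← Finset.sum_range_add_sum_Ico _ (show n ≤ K + 1 from hK)]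
  have hzero : ∑ i ∈ Finset.Ico n (K + 1),
      scaledVar n ϖ (i + 1) ^ p ^ (K - i) * bSer n ϖ (K - i) = 0 := by
    refine Finset.sum_eq_zero fun i hi => ?_
    rw [Finset.mem_Ico] at hi
    have : scaledVar n ϖ (i + 1) = 0 := by
      unfold scaledVar vTuple
      rw [dif_neg (by omega), if_neg (by omega)]
    rw [this, zero_pow (pow_ne_zero _ hp.out.ne_zero), zero_mul]
  rw [hzero, add_zero]
  obtain ⟨m, rfl⟩ : ∃ m, n = m + 1 := ⟨n - 1, by omega⟩
  rw [Finset.sum_range_succ, add_comm (Finset.sum _ _),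
    show Finset.range (m + 1 - 1) = Finset.range m from rfl]
  congr 1
  · have : scaledVar (m + 1) ϖ (m + 1) = (1 : MvPowerSeries _ ℂ_[p]) := by
      unfold scaledVar vTuple
      rw [dif_neg (by omega), if_pos rfl]
    rw [this, one_pow, one_mul, show K + 1 - (m + 1) = K - m from Nat.add_sub_add_right _ _ _]
  · exact Finset.sum_congr rfl fun i _ => by
      rw [show K + 1 - (i + 1) = K - i from Nat.add_sub_add_right _ _ _]

/-- The quasi-periods are given by bounded series in scaled coordinates. -/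
lemma exists_wSeries (hn : 1 ≤ n) (hϖ0 : ϖ ≠ 0) (hϖ : ‖ϖ‖ < 1)
    (ht : ∀ u : Fin (n - 1) → ℂ_[p], Small u → ∀ r, Tendsto (fun k : ℕ => (p : ℂ_[p]) ^ k *
      (L p (vTuple n u) (n * k + r) / (p : ℂ_[p]) ^ (n * k + r))) atTop
        (𝓝 (wper p n (vTuple n u) r))) (r : Fin n) :
    ∃ (Ω : MvPowerSeries (Fin (n - 1)) ℂ_[p]) (B : ℝ), Bd Ω B ∧
      ∀ z : Fin (n - 1) → ℂ_[p], Small z →
        wper p n (vTuple n fun i => ϖ * z i) r = ev z Ω := by
  set P : ℕ → MvPowerSeries (Fin (n - 1)) ℂ_[p] := fun k =>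
    MvPowerSeries.C ((p : ℂ_[p]) ^ k) * bSer n ϖ (n * k + r) with hP
  obtain ⟨B, hB⟩ := bound_pow_mul_sq (p := p) (norm_nonneg ϖ) hϖ
  set B₀ : ℝ := max B 0 * (p : ℝ) ^ n
  have hdiff : ∀ k, Bd (P (k + 1) - P k) ((p : ℝ)⁻¹ ^ k * B₀) := by
    intro k d
    have hrec := p_mul_bSer (ϖ := ϖ) hn (K := n * (k + 1) + r) (by rw [Nat.mul_succ]; omega)
    rw [show n * (k + 1) + (r : ℕ) - n = n * k + r by rw [Nat.mul_succ]; omega] at hrec
    have hk : P (k + 1) - P k = MvPowerSeries.C ((p : ℂ_[p]) ^ k) *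
        ∑ i ∈ Finset.range (n - 1), scaledVar n ϖ (i + 1) ^ p ^ (n * (k + 1) + r - (i + 1)) *
          bSer n ϖ (n * (k + 1) + r - (i + 1)) := by
      simp only [hP]
      rw [pow_succ, map_mul, mul_assoc, hrec, mul_add, add_sub_cancel_left]
    rw [hk, coeff_C_mul, norm_mul, norm_pow, norm_natCast_padic, map_sum]
    refine mul_le_mul_of_nonneg_left
      (IsUltrametricDist.norm_sum_le_of_forall_le_of_nonneg (by positivity) fun i hi => ?_)
      (by positivity)
    rw [Finset.mem_range] at hi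
    set K' := n * (k + 1) + (r : ℕ) - (i + 1)
    have h1 : Bd (scaledVar n ϖ (i + 1)) ‖ϖ‖ := fun e => by
      have := bd_scaledVar hϖ.le (i + 1) e
      rwa [if_pos (by omega)] at this
    refine (((h1.pow (norm_nonneg _) _).mul (by positivity) (by positivity)
      (bd_bSer hϖ.le K')) d).trans ?_
    rw [mul_comm]
    calc (p : ℝ) ^ K' * ‖ϖ‖ ^ p ^ K' ≤ max B 0 * 1 := by
          rw [mul_one]; exact (hB K').trans (le_max_left _ _)
      _ ≤ B₀ := mul_le_mul_of_nonneg_left
          (one_le_pow₀ (by exact_mod_cast hp.out.one_lt.le)) (le_max_right _ _)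
  have hB₀ : 0 ≤ B₀ := by positivity
  have hp1 : (p : ℝ)⁻¹ < 1 := inv_lt_one_of_one_lt₀ (by exact_mod_cast hp.out.one_lt)
  have hp0 : (0 : ℝ) ≤ (p : ℝ)⁻¹ := by positivity
  have hs : ∀ d, Summable fun k => coeff d (P (k + 1) - P k) := fun d =>
    Eval.summable_of_bound id (fun N => Set.finite_lt_nat N) hp0 hp1
      (B := B₀) fun k => by
      rw [mul_comm]; exact hdiff k d
  set Ω : MvPowerSeries (Fin (n - 1)) ℂ_[p] := fun d =>
    coeff d (P 0) + ∑' k, coeff d (P (k + 1) - P k) with hΩ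
  have hPK : ∀ K, Bd (Ω - P K) ((p : ℝ)⁻¹ ^ K * B₀) := by
    intro K d
    have hΩd : coeff d Ω = coeff d (P 0) + ∑' k, coeff d (P (k + 1) - P k) := rfl
    rw [map_sub, hΩd, ← (hs d).sum_add_tsum_nat_add K]
    have htel : ∑ k ∈ Finset.range K, coeff d (P (k + 1) - P k) = coeff d (P K) - coeff d (P 0) := by
      simp only [map_sub]
      exact Finset.sum_range_sub (fun k => coeff d (P k)) K
    rw [htel, show ∀ a b c : ℂ_[p], a + (b - a + c) - b = c from fun a b c => by ring]
    refine Eval.norm_tsum_le (by positivity) fun k => (hdiff _ d).trans ?_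
    exact mul_le_mul_of_nonneg_right (pow_le_pow_of_le_one hp0 hp1.le (by omega)) hB₀
  refine ⟨Ω, max ((p : ℝ) ^ (r : ℕ)) B₀, fun d => ?_, fun z hz => ?_⟩
  · have h0 : ‖coeff d (P 0)‖ ≤ (p : ℝ) ^ (r : ℕ) := by
      simp only [hP, pow_zero, map_one, one_mul, mul_zero, zero_add]
      exact bd_bSer hϖ.le _ d
    rw [← sub_add_cancel Ω (P 0), map_add]
    refine (IsUltrametricDist.norm_add_le_max _ _).trans (max_le ?_ (h0.trans (le_max_left _ _)))
    exact ((hPK 0 d).trans (by rw [pow_zero, one_mul])).trans (le_max_right _ _)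
  · have hzs : Small fun i => ϖ * z i := fun i => by
      rw [norm_mul]
      exact (mul_le_of_le_one_right (norm_nonneg _) (hz i).le).trans_lt hϖ
    refine tendsto_nhds_unique (ht _ hzs r) ?_
    rw [tendsto_iff_norm_sub_tendsto_zero]
    refine squeeze_zero (fun _ => norm_nonneg _) (fun K => ?_)
      (by simpa using (tendsto_pow_atTop_nhds_zero_of_lt_one hp0 hp1).mul_const B₀)
    have hval : (p : ℂ_[p]) ^ K * (L p (vTuple n fun i => ϖ * z i) (n * K + r) /
        (p : ℂ_[p]) ^ (n * K + r)) = ev z (P K) := by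
      let ψ : MvPowerSeries (Fin (n - 1)) (unitBall ℂ_[p]) →+* ℂ_[p] :=
        evHom (unitBall ℂ_[p]).subtype (fun a => a.2) hz
      let w : ℕ → MvPowerSeries (Fin (n - 1)) (unitBall ℂ_[p]) :=
        vTuple n fun i => MvPowerSeries.C (⟨ϖ, hϖ.le⟩ : unitBall ℂ_[p]) * MvPowerSeries.X i
      have hw : (fun i => MvPowerSeries.map (unitBall ℂ_[p]).subtype (w i)) = scaledVar n ϖ := by
        funext i
        simp only [w, scaledVar, map_vTuple, map_mul, map_C, map_X]
        rfl
      have hψ : (fun i => ψ (w i)) = vTuple n fun i => ϖ * z i := by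
        funext i
        simp only [w, map_vTuple, map_mul]
        congr 1
        funext l
        exact congrArg₂ (· * ·) (evK_C _ _ _) (evK_X' _ _ _)
      have h1 : ev z (L p (scaledVar n ϖ) (n * K + r)) = L p (vTuple n fun i => ϖ * z i) (n * K + r) := by
        rw [← hψ, ← map_L, ← hw, ← map_L]
        rfl
      rw [← h1]
      simp only [hP, bSer, ← mul_assoc, ← map_mul]
      rw [ev, ev, div_eq_mul_inv, ← tsum_mul_right, ← tsum_mul_left]
      exact tsum_congr fun d => by rw [coeff_C_mul]; ring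
    rw [hval]
    have hPb : Bd (P K) (max (((p : ℝ)⁻¹ ^ K) * (p : ℝ) ^ (n * K + r)) 0) := fun d => by
      simp only [hP]
      rw [coeff_C_mul, norm_mul, norm_pow, norm_natCast_padic]
      exact (mul_le_mul_of_nonneg_left (bd_bSer hϖ.le _ d) (by positivity)).trans (le_max_left _ _)
    have hΩb : Summable fun d => coeff d Ω * mon z d := by
      refine ((summable_bd (hPK K) hz).add (summable_bd hPb hz)).congr fun d => ?_
      rw [map_sub]; ring
    have e : ev z (P K) - ev z Ω = -(ev z (Ω - P K)) := by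
      simp only [ev, map_sub, sub_mul]
      rw [hΩb.tsum_sub (summable_bd hPb hz)]
      ring
    rw [e, norm_neg, ← inv_pow]
    exact norm_ev_bd (hPK K) hz

end WSeries

end Vale.Agent.P217

end
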