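import Vale.Agent.P217.Targets
import Mathlib.FieldTheory.Finite.Basic
import Mathlib.LinearAlgebra.LinearIndependent.Lemmas
import Mathlib.LinearAlgebra.Dual.Lemmas

/-!
# P217: independence of Frobenius twists, periods of monomial endomorphisms
-/

noncomputable section

namespace Vale.Agent.P217

variable {p : ℕ} [hp : Fact p.Prime] {k : Type} [Field k] [CharP k p] [Fintype k] {n : ℕ}

lemma pow_pow_ne (hk : Fintype.card k = p ^ n) {r r' : ℕ} (hr : r < n) (hr' : r' < n)
    (hne : r ≠ r') : ∃ c : k, c ^ p ^ r ≠ c ^ p ^ r' := by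
  classical
  by_contra hcon
  simp only [not_exists, not_not] at hcon
  set P : Polynomial k := Polynomial.X ^ p ^ r - Polynomial.X ^ p ^ r'
  have hrr : p ^ r ≠ p ^ r' := fun h => hne (Nat.pow_right_injective hp.out.two_le h)
  have hP : P ≠ 0 := by
    intro h
    have := congrArg (Polynomial.coeff · (p ^ r)) h
    simp [P, Polynomial.coeff_X_pow, hrr] at this
  have hsub : (Finset.univ : Finset k).val ⊆ P.roots := fun c _ => by
    rw [Polynomial.mem_roots hP]
    simp [P, hcon c]
  have h1 := Polynomial.card_le_degree_of_subset_roots hsub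
  rw [Finset.card_univ, hk] at h1
  have h2 : P.natDegree ≤ max (p ^ r) (p ^ r') := by
    refine (Polynomial.natDegree_sub_le _ _).trans ?_
    simp
  have h3 : max (p ^ r) (p ^ r') < p ^ n :=
    max_lt (Nat.pow_lt_pow_right hp.out.one_lt hr) (Nat.pow_lt_pow_right hp.out.one_lt hr')
  omega

/-- Coefficients that separate the Frobenius twists of an injective multiplicative map. -/
lemma exists_comb {L : Type} [Field L] (χ : k →*₀ L) (hχ : Function.Injective χ)
    (hk : Fintype.card k = p ^ n) {r₀ : ℕ} (hr₀ : r₀ < n) :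
    ∃ a : k → L, ∀ r < n, ∑ c, a c * χ c ^ p ^ r = if r = r₀ then 1 else 0 := by
  classical
  let f : Fin n → (k →* L) := fun r => (powMonoidHom (p ^ (r : ℕ))).comp χ.toMonoidHom
  have hf : ∀ (r : Fin n) (c : k), f r c = χ c ^ p ^ (r : ℕ) := fun r c => rfl
  have hinj : Function.Injective f := by
    intro r r' h
    by_contra hne
    obtain ⟨c, hc⟩ := pow_pow_ne hk r.2 r'.2 (fun e => hne (Fin.ext e))
    refine hc (hχ ?_)
    rw [map_pow, map_pow, ← hf, ← hf, h]
  have hli : LinearIndependent L fun r => (f r : k → L) :=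
    (linearIndependent_monoidHom k L).comp f hinj
  let Φ : (k → L) →ₗ[L] (Fin n → L) :=
    { toFun := fun a r => ∑ c, a c * χ c ^ p ^ (r : ℕ)
      map_add' := fun a b => funext fun r => by simp [add_mul, Finset.sum_add_distrib]
      map_smul' := fun t a => funext fun r => by simp [Finset.mul_sum, mul_assoc] }
  have hsurj : LinearMap.range Φ = ⊤ := by
    by_contra hne
    obtain ⟨ψ, hψ, hψ0⟩ := Submodule.exists_dual_map_eq_bot_of_lt_top (lt_top_iff_ne_top.mpr hne)
      inferInstance
    apply hψ
    have h0 : ∀ a, ψ (Φ a) = 0 := fun a => by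
      have hmem : ψ (Φ a) ∈ Submodule.map ψ (LinearMap.range Φ) :=
        Submodule.mem_map_of_mem (LinearMap.mem_range_self Φ a)
      rwa [hψ0, Submodule.mem_bot] at hmem
    have hsum : ∑ r : Fin n, ψ (Pi.single r 1) • (f r : k → L) = 0 := by
      funext c
      have h1 := h0 (Pi.single c 1)
      have e : Φ (Pi.single c 1) = ∑ r : Fin n, χ c ^ p ^ (r : ℕ) • (Pi.single r 1 : Fin n → L) := by
        funext r
        simp [Φ, Pi.single_apply]
      rw [e, map_sum] at h1
      simp only [map_smul, smul_eq_mul] at h1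
      simp only [Finset.sum_apply, Pi.smul_apply, smul_eq_mul, hf, Pi.zero_apply]
      rw [← h1]
      exact Finset.sum_congr rfl fun r _ => mul_comm _ _
    have hz := Fintype.linearIndependent_iff.mp hli _ hsum
    refine (Pi.basisFun L (Fin n)).ext fun r => ?_
    simp only [Pi.basisFun_apply, LinearMap.zero_apply]
    exact hz r
  obtain ⟨a, ha⟩ : Pi.single (⟨r₀, hr₀⟩ : Fin n) (1 : L) ∈ LinearMap.range Φ := by
    rw [hsurj]; trivial
  refine ⟨a, fun r hr => ?_⟩
  have := congrFun ha ⟨r, hr⟩
  simpa [Φ, Pi.single_apply, Fin.ext_iff] using this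

end Vale.Agent.P217

end
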