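import Vale.Agent.P217.CharZero.Functional
import Vale.Agent.P217.CharZero.Span
import Vale.Agent.P217.Monomial
import Vale.Agent.P217.Grad

/-!
# P217: period vectors, matrices of endomorphisms, powers of an admissible automorphism
-/

noncomputable section

namespace Vale.Agent.P217

open MvPowerSeries Filter Topology
open scoped Matrix

section NonVanishing

variable {p : ℕ} [hp : Fact p.Prime]

lemma p_mul_logCoeff {n : ℕ} (hn : 1 ≤ n) (u : Fin (n - 1) → ℂ_[p]) {K : ℕ} (hK : n ≤ K) :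
    (p : ℂ_[p]) * (L p (vTuple n u) K / (p : ℂ_[p]) ^ K) =
      L p (vTuple n u) (K - n) / (p : ℂ_[p]) ^ (K - n) +
        ∑ i ∈ Finset.range (n - 1), vTuple n u (i + 1) ^ p ^ (K - (i + 1)) *
          (L p (vTuple n u) (K - (i + 1)) / (p : ℂ_[p]) ^ (K - (i + 1))) := by
  obtain ⟨K, rfl⟩ : ∃ K', K = K' + 1 := ⟨K - 1, by omega⟩
  have hp0 : (p : ℂ_[p]) ≠ 0 := Nat.cast_ne_zero.mpr hp.out.ne_zero
  rw [L_succ, div_eq_mul_inv, Finset.sum_mul, Finset.mul_sum]
  simp only [← div_eq_mul_inv]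
  have hterm : ∀ i ∈ Finset.range (K + 1),
      (p : ℂ_[p]) * (vTuple n u (i + 1) ^ p ^ (K - i) * (p : ℂ_[p]) ^ i *
        L p (vTuple n u) (K - i) / (p : ℂ_[p]) ^ (K + 1)) =
      vTuple n u (i + 1) ^ p ^ (K - i) *
        (L p (vTuple n u) (K - i) / (p : ℂ_[p]) ^ (K - i)) := by
    intro i hi
    rw [Finset.mem_range] at hi
    obtain ⟨d, rfl⟩ : ∃ d, K = i + d := ⟨K - i, by omega⟩
    rw [show i + d - i = d by omega, show i + d + 1 = i + 1 + d by omega, pow_add, pow_succ]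
    field_simp
  rw [Finset.sum_congr rfl hterm]
  rw [← Finset.sum_range_add_sum_Ico _ (show n ≤ K + 1 from hK)]
  have hzero : ∑ i ∈ Finset.Ico n (K + 1), vTuple n u (i + 1) ^ p ^ (K - i) *
      (L p (vTuple n u) (K - i) / (p : ℂ_[p]) ^ (K - i)) = 0 := by
    refine Finset.sum_eq_zero fun i hi => ?_
    rw [Finset.mem_Ico] at hi
    have : vTuple n u (i + 1) = 0 := by
      unfold vTuple
      rw [dif_neg (by omega), if_neg (by omega)]
    rw [this, zero_pow (pow_ne_zero _ hp.out.ne_zero), zero_mul]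
  rw [hzero, add_zero]
  obtain ⟨m, rfl⟩ : ∃ m, n = m + 1 := ⟨n - 1, by omega⟩
  rw [Finset.sum_range_succ, add_comm, Nat.add_sub_cancel]
  congr 1
  · have : vTuple (m + 1) u (m + 1) = 1 := by
      unfold vTuple
      rw [dif_neg (by omega), if_pos rfl]
    rw [this, one_pow, one_mul, Nat.add_sub_add_right]
  · exact Finset.sum_congr rfl fun i _ => by rw [Nat.add_sub_add_right]

lemma exists_wper_ne {n : ℕ} (hn : 1 ≤ n) {u : Fin (n - 1) → ℂ_[p]} (hu : Small u)
    (ht : ∀ r, Tendsto (fun k : ℕ => (p : ℂ_[p]) ^ k *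
      (L p (vTuple n u) (n * k + r) / (p : ℂ_[p]) ^ (n * k + r))) atTop
        (𝓝 (wper p n (vTuple n u) r))) :
    ∃ r : Fin n, wper p n (vTuple n u) r ≠ 0 := by
  by_contra hcon
  simp only [not_exists, not_not] at hcon
  set v := vTuple n u with hv
  set b : ℕ → ℂ_[p] := fun K => L p v K / (p : ℂ_[p]) ^ K with hb
  set ν : ℕ → ℝ := fun K => ‖(p : ℂ_[p]) ^ (K / n) * b K‖ with hν
  have hpn : (0 : ℝ) < (p : ℝ) := by exact_mod_cast hp.out.pos
  have htail : ∀ ε : ℝ, 0 < ε → ∃ M, ∀ K, M ≤ K → ν K < ε := by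
    intro ε hε
    have h1 : ∀ᶠ k : ℕ in atTop, ∀ r : Fin n,
        ‖(p : ℂ_[p]) ^ k * b (n * k + r)‖ < ε := by
      refine eventually_all.mpr fun r => ?_
      have h2 := (ht r).norm
      rw [hcon r, norm_zero] at h2
      exact h2.eventually_lt_const hε
    obtain ⟨M, hM⟩ := eventually_atTop.mp h1
    refine ⟨n * M, fun K hK => ?_⟩
    have hd : M ≤ K / n := (Nat.le_div_iff_mul_le (by omega)).mpr (by rwa [mul_comm])
    have := hM (K / n) hd ⟨K % n, Nat.mod_lt _ (by omega)⟩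
    simpa [hν, Nat.div_add_mod] using this
  obtain ⟨c, hc0, hc1, hc⟩ := Eval.exists_radius hu
  obtain ⟨K₁, hK₁⟩ : ∃ K₁, ∀ K, K₁ ≤ K → (p : ℝ) * c ^ p ^ K ≤ 1 := by
    have h := ((tendsto_pow_atTop_nhds_zero_of_lt_one hc0 hc1).comp
      (tendsto_pow_atTop_atTop_of_one_lt hp.out.one_lt)).const_mul (p : ℝ)
    rw [mul_zero] at h
    exact eventually_atTop.mp (h.eventually_le_const one_pos)
  have hrec : ∀ K, n ≤ K → b (K - n) = (p : ℂ_[p]) * b K -
      ∑ i ∈ Finset.range (n - 1), v (i + 1) ^ p ^ (K - (i + 1)) * b (K - (i + 1)) := by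
    intro K hK
    simp only [hb, hv]
    rw [p_mul_logCoeff hn u hK, add_sub_cancel_right]
  have hstep : ∀ K, n + K₁ ≤ K → ∀ B, 0 ≤ B → (∀ K', K - n < K' → ν K' ≤ B) → ν (K - n) ≤ B := by
    intro K hK B hB hle
    have hdiv : K / n = (K - n) / n + 1 := Nat.div_eq_sub_div (by omega) (by omega)
    simp only [hν] at hle ⊢
    rw [hrec K (by omega), mul_sub, Finset.mul_sum]
    refine (Eval.norm_sub_le_max' _ _).trans (max_le ?_ ?_)
    · rw [← mul_assoc, ← pow_succ, ← hdiv]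
      exact hle K (by omega)
    · refine IsUltrametricDist.norm_sum_le_of_forall_le_of_nonneg hB fun i hi => ?_
      rw [Finset.mem_range] at hi
      set K' := K - (i + 1)
      have hdiv' : K' / n ≤ (K - n) / n + 1 := hdiv ▸ Nat.div_le_div_right (Nat.sub_le _ _)
      obtain ⟨e, he⟩ : ∃ e, (K - n) / n + 1 = K' / n + e := ⟨_, (Nat.add_sub_cancel' hdiv').symm⟩
      have h1 := hle K' (by omega)
      have hvi : ‖v (i + 1)‖ ≤ c := by
        rw [hv, vTuple, dif_pos (by omega)]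
        exact hc _
      have h2 : ‖(p : ℂ_[p]) ^ ((K - n) / n)‖ ≤ (p : ℝ) * ‖(p : ℂ_[p]) ^ (K' / n)‖ := by
        have : ‖(p : ℂ_[p]) ^ ((K - n) / n + 1)‖ ≤ ‖(p : ℂ_[p]) ^ (K' / n)‖ := by
          rw [he, pow_add, norm_mul]
          refine mul_le_of_le_one_right (norm_nonneg _) ?_
          rw [norm_pow, norm_natCast_padic]
          exact pow_le_one₀ (by positivity) (inv_le_one_of_one_le₀ (by exact_mod_cast hp.out.pos))
        rw [pow_succ, norm_mul, norm_natCast_padic, ← div_eq_mul_inv, div_le_iff₀ hpn] at this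
        rwa [mul_comm] at this
      calc ‖(p : ℂ_[p]) ^ ((K - n) / n) * (v (i + 1) ^ p ^ K' * b K')‖
          = ‖(p : ℂ_[p]) ^ ((K - n) / n)‖ * (‖v (i + 1)‖ ^ p ^ K' * ‖b K'‖) := by
            rw [norm_mul, norm_mul, norm_pow (v (i + 1))]
        _ ≤ (p : ℝ) * ‖(p : ℂ_[p]) ^ (K' / n)‖ * (c ^ p ^ K' * ‖b K'‖) :=
            mul_le_mul h2 (mul_le_mul_of_nonneg_right
              (pow_le_pow_left₀ (norm_nonneg _) hvi _) (norm_nonneg _)) (by positivity)
              (by positivity)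
        _ = ((p : ℝ) * c ^ p ^ K') * ‖(p : ℂ_[p]) ^ (K' / n) * b K'‖ := by
            rw [norm_mul]; ring
        _ ≤ 1 * B := mul_le_mul (hK₁ K' (by omega)) h1 (norm_nonneg _) zero_le_one
        _ = B := one_mul B
  have hν0 : ∀ K, K₁ ≤ K → ν K = 0 := by
    intro K hK
    refine le_antisymm (le_of_forall_gt_imp_ge_of_dense fun ε hε => ?_) (norm_nonneg _)
    obtain ⟨M, hM⟩ := htail ε hε
    suffices ∀ d K', K₁ ≤ K' → M ≤ K' + d → ν K' ≤ ε from this M K hK (by omega)
    intro d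
    induction d with
    | zero => exact fun K' _ h => (hM K' (by omega)).le
    | succ d ih =>
      intro K' h1 h2
      have := hstep (K' + n) (by omega) ε hε.le
        (fun K'' h' => ih K'' (by omega) (by omega))
      rwa [Nat.add_sub_cancel] at this
  have hb0 : ∀ d K, K₁ ≤ K + d → b K = 0 := by
    intro d
    induction d with
    | zero =>
      intro K hK
      have := hν0 K (by omega)
      simp only [hν, norm_eq_zero, mul_eq_zero] at this
      exact this.resolve_left (pow_ne_zero _ (Nat.cast_ne_zero.mpr hp.out.ne_zero))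
    | succ d ih =>
      intro K hK
      have h := hrec (K + n) (by omega)
      rw [Nat.add_sub_cancel, ih (K + n) (by omega), mul_zero, Finset.sum_eq_zero, sub_zero] at h
      · exact h
      · intro i hi
        rw [Finset.mem_range] at hi
        rw [ih (K + n - (i + 1)) (by omega), mul_zero]
  have := hb0 K₁ 0 (by omega)
  simp [hb, L_zero] at this

end NonVanishing

variable {p : ℕ} [hp : Fact p.Prime] {k : Type} [Field k] [CharP k p] [Fintype k]
  {C : Type} [NormedField C] [IsUltrametricDist C] [CompleteSpace C] [CharP C p] [PerfectRing C p]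
  (S : Sharp p C) (j : k →+* unitBall C) {n : ℕ}

/-- The vector of periods. -/
def pv (n : ℕ) (η : C) : Fin n → ℂ_[p] := fun r => per p n S η (r : ℕ)

/-- The vector of quasi-periods. -/
def wv (n : ℕ) (u : Fin (n - 1) → ℂ_[p]) : Fin n → ℂ_[p] := fun r => wper p n (vTuple n u) r

lemma Lv_eq_dot (u : Fin (n - 1) → ℂ_[p]) (η : C) :
    Lv p n S (vTuple n u) η = wv n u ⬝ᵥ pv S n η :=
  (Fin.sum_univ_eq_sum_range (fun r : ℕ => wper p n (vTuple n u) r * per p n S η r) n).symm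

/-- The embedding of `k` in the field `C`. -/
abbrev jC : k →+* C := (unitBall C).subtype.comp j

/-- `A` is the matrix of the endomorphism `a` on periods. -/
def HasMat (n : ℕ) (a : PowerSeries k) (A : Matrix (Fin n) (Fin n) ℂ_[p]) : Prop :=
  IsEndo (honda p n k) a ∧
    ∀ η : C, ‖η‖ < 1 → pv S n (ev1 η (PowerSeries.map (jC j) a)) = A *ᵥ pv S n η

lemma mapjC_int (a : PowerSeries k) :
    IntSer (PowerSeries.map (jC j) a : MvPowerSeries Unit C) := fun d => by
  show ‖((j (MvPowerSeries.coeff d (a : MvPowerSeries Unit k)) : unitBall C) : C)‖ ≤ 1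
  exact (j _).2

lemma mapjC_const {a : PowerSeries k} (h : PowerSeries.constantCoeff a = 0) :
    PowerSeries.constantCoeff (PowerSeries.map (jC j) a) = 0 := by
  rw [← PowerSeries.coeff_zero_eq_constantCoeff_apply, PowerSeries.coeff_map,
    PowerSeries.coeff_zero_eq_constantCoeff_apply, h, map_zero]

lemma ev1_mapjC_small {a : PowerSeries k} (ha : IsEndo (honda p n k) a) {η : C} (hη : ‖η‖ < 1) :
    ‖ev1 η (PowerSeries.map (jC j) a)‖ < 1 :=
  (Eval.norm_ev_le (σ := Unit) (mapjC_int j a) (fun _ => hη) (mapjC_const j ha.1) (norm_nonneg η)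
    fun _ => le_rfl).trans_lt hη

variable {S j}

lemma HasMat.add (hLaw : LawTarget) (hE : EvalTarget) (hP : PeriodTarget) (hn : 1 ≤ n)
    {a b : PowerSeries k} {A B : Matrix (Fin n) (Fin n) ℂ_[p]} (ha : HasMat S j n a A)
    (hb : HasMat S j n b B) :
    HasMat S j n (fadd (honda p n k) (a : MvPowerSeries Unit k) b) (A + B) := by
  refine ⟨IsHom.fadd (honda_isComm p n hLaw k) ha.1 hb.1, fun η hη => ?_⟩
  have e : ev1 η (PowerSeries.map (jC j) (fadd (honda p n k) (a : MvPowerSeries Unit k) b)) =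
      padd (honda p n C) (ev1 η (PowerSeries.map (jC j) a)) (ev1 η (PowerSeries.map (jC j) b)) := by
    show ev (fun _ : Unit => η)
      (MvPowerSeries.map (jC j) (fadd (honda p n k) (a : MvPowerSeries Unit k) b)) = _
    rw [map_fadd_endo _ _ ha.1.1 hb.1.1, honda_map]
    exact ev_fadd hE (norm_le_one_of_law p (norm_vHonda_le n)) (mapjC_int j a)
      (mapjC_const j ha.1.1) (mapjC_int j b) (mapjC_const j hb.1.1) (fun _ => hη)
  rw [e, Matrix.add_mulVec, ← ha.2 η hη, ← hb.2 η hη]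
  funext r
  exact ((hP p C S n hn).1 _ _ (ev1_mapjC_small j ha.1 hη)).2.2.1 _ (ev1_mapjC_small j hb.1 hη)

lemma per_mod (hP : PeriodTarget) (hn : 1 ≤ n) {η : C} (hη : ‖η‖ < 1) : ∀ m : ℕ,
    per p n S η m = (p : ℂ_[p]) ^ (m / n) * per p n S η (m % n : ℕ) := by
  intro m
  induction m using Nat.strong_induction_on with
  | _ m ih =>
    rcases Nat.lt_or_ge m n with h | h
    · rw [Nat.div_eq_of_lt h, Nat.mod_eq_of_lt h, pow_zero, one_mul]
    · obtain ⟨m', rfl⟩ : ∃ m', m = m' + n := ⟨m - n, by omega⟩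
      rw [Nat.add_mod_right, Nat.add_div_right _ (by omega : 0 < n), Nat.cast_add,
        ((hP p C S n hn).1 η m' hη).2.1, ih m' (by omega), pow_succ', mul_assoc]

variable (S j) in
/-- The matrix of the monomial endomorphism `ω z^(p^t)`. -/
def monMat (hn : 1 ≤ n) (ω : k) (t : ℕ) : Matrix (Fin n) (Fin n) ℂ_[p] :=
  Matrix.of fun r s =>
    if s = (⟨((r : ℕ) + t) % n, Nat.mod_lt _ hn⟩ : Fin n) then
      S.ρ (jC j ω) ^ p ^ (r : ℕ) * (p : ℂ_[p]) ^ (((r : ℕ) + t) / n)
    else 0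

lemma monMat_mulVec (hn : 1 ≤ n) (ω : k) (t : ℕ) (v : Fin n → ℂ_[p]) (r : Fin n) :
    (monMat S j hn ω t *ᵥ v) r = S.ρ (jC j ω) ^ p ^ (r : ℕ) *
      ((p : ℂ_[p]) ^ (((r : ℕ) + t) / n) * v ⟨((r : ℕ) + t) % n, Nat.mod_lt _ hn⟩) := by
  rw [Matrix.mulVec, dotProduct, Finset.sum_eq_single (⟨((r : ℕ) + t) % n, Nat.mod_lt _ hn⟩ : Fin n)]
  · rw [monMat, Matrix.of_apply, if_pos rfl, mul_assoc]
  · intro s _ hs
    rw [monMat, Matrix.of_apply, if_neg hs, zero_mul]
  · intro h
    exact absurd (Finset.mem_univ _) h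

lemma hasMat_monomial (hP : PeriodTarget) (hn : 1 ≤ n) (hk : Fintype.card k = p ^ n) (ω : k)
    (t : ℕ) :
    HasMat S j n (PowerSeries.C ω * PowerSeries.X ^ p ^ t) (monMat S j hn ω t) := by
  have hω : ω ^ p ^ n = ω := hk ▸ FiniteField.pow_card ω
  refine ⟨isEndo_monomial hn hω t, fun η hη => ?_⟩
  have hev : ev1 η (PowerSeries.map (jC j) (PowerSeries.C ω * PowerSeries.X ^ p ^ t)) =
      jC j ω * η ^ p ^ t := by
    rw [map_mul, PowerSeries.map_C, map_pow, PowerSeries.map_X, Eval.ev1_eq_tsum,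
      tsum_eq_single (p ^ t)]
    · rw [PowerSeries.coeff_C_mul, PowerSeries.coeff_X_pow, if_pos rfl, mul_one]
    · intro m hm
      rw [PowerSeries.coeff_C_mul, PowerSeries.coeff_X_pow, if_neg hm, mul_zero, zero_mul]
  funext r
  rw [monMat_mulVec, hev]
  have hpow : ‖η ^ p ^ t‖ < 1 := by
    rw [norm_pow]
    exact pow_lt_one₀ (norm_nonneg _) hη (pow_ne_zero _ hp.out.ne_zero)
  have hc : jC j ω ^ p ^ n = jC j ω := by rw [← map_pow, hω]
  show per p n S (jC j ω * η ^ p ^ t) (r : ℕ) = _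
  rw [((hP p C S n hn).1 _ _ hpow).2.2.2.2.1 _ hc, ((hP p C S n hn).1 η _ hη).2.2.2.1 t,
    ← Nat.cast_add, per_mod hP hn hη, ← Int.natCast_mod, Int.toNat_natCast,
    Nat.mod_eq_of_lt r.2]
  rfl

lemma rho_jC_injective : Function.Injective (fun c : k => S.ρ (jC j c)) := by
  intro a b h
  simp only at h
  by_contra hne
  rcases eq_or_ne b 0 with rfl | hb
  · have : S.ρ (jC j a) = 0 := by rw [h, map_zero, map_zero]
    rw [← norm_eq_zero, S.norm_eq, norm_eq_zero, _root_.map_eq_zero] at this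
    exact hne this
  have hb' : jC j b ≠ 0 := fun e => hb ((_root_.map_eq_zero _).mp e)
  have hρb : S.ρ (jC j b) ≠ 0 := by rw [← norm_ne_zero_iff, S.norm_eq, norm_ne_zero_iff]; exact hb'
  have h1 : S.ρ (jC j (a / b)) = 1 := by rw [map_div₀, map_div₀, h, div_self hρb]
  set c := jC j (a / b) with hc
  have hc1 : ‖c - 1‖ ≤ 1 := (Eval.norm_sub_le_max' _ _).trans (max_le (j _).2 norm_one.le)
  have h2 := S.add_le (c - 1) 1 hc1 norm_one.le
  rw [sub_add_cancel, h1, map_one, sub_right_comm, sub_self, zero_sub, norm_neg, S.norm_eq] at h2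
  rcases eq_or_ne (a / b - 1) 0 with h0 | h0
  · exact hne (by rwa [sub_eq_zero, div_eq_one_iff_eq hb] at h0)
  · have h3 : ‖jC j (a / b - 1)‖ = 1 := by
      refine le_antisymm (j _).2 ?_
      have h4 : (1 : ℝ) = ‖jC j (a / b - 1)‖ * ‖jC j (a / b - 1)⁻¹‖ := by
        rw [← norm_mul, ← map_mul, mul_inv_cancel₀ h0, map_one, norm_one]
      rw [h4]
      exact mul_le_of_le_one_right (norm_nonneg _) (j _).2
    rw [map_sub, map_one, ← hc] at h3
    rw [h3, one_div] at h2
    exact absurd h2 (not_le.mpr (inv_lt_one_of_one_lt₀ (by exact_mod_cast hp.out.one_lt)))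

/-- A linear form killed by all monomial matrices vanishes. -/
lemma eq_zero_of_monMat (hn : 1 ≤ n) (hk : Fintype.card k = p ^ n) {w v : Fin n → ℂ_[p]}
    (hw : w ≠ 0) (h : ∀ ω t, w ⬝ᵥ (monMat S j hn ω t *ᵥ v) = 0) : v = 0 := by
  obtain ⟨r₀, hr₀⟩ := Function.ne_iff.mp hw
  funext s
  obtain ⟨a, ha⟩ := exists_comb (p := p) (n := n) (S.ρ.comp (jC j).toMonoidWithZeroHom)
    (rho_jC_injective (S := S) (j := j)) hk r₀.2
  set t := (s : ℕ) + n - r₀ with ht
  have h' : ∑ ω, a ω * (w ⬝ᵥ (monMat S j hn ω t *ᵥ v)) = 0 :=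
    Finset.sum_eq_zero fun ω _ => by rw [h ω t, mul_zero]
  simp only [dotProduct, monMat_mulVec, Finset.mul_sum] at h'
  rw [Finset.sum_comm, Finset.sum_eq_single r₀] at h'
  · have hsum : ∑ ω, a ω * S.ρ (jC j ω) ^ p ^ (r₀ : ℕ) = 1 := by
      simpa using ha r₀ r₀.2
    have hidx : (⟨((r₀ : ℕ) + t) % n, Nat.mod_lt _ hn⟩ : Fin n) = s := by
      refine Fin.ext ?_
      show ((r₀ : ℕ) + t) % n = s
      rw [show (r₀ : ℕ) + t = s + n by omega, Nat.add_mod_right, Nat.mod_eq_of_lt s.2]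
    rw [hidx] at h'
    have e : (∑ ω, a ω * S.ρ (jC j ω) ^ p ^ (r₀ : ℕ)) *
        (w r₀ * ((p : ℂ_[p]) ^ (((r₀ : ℕ) + t) / n) * v s)) = 0 := by
      rw [Finset.sum_mul, ← h']
      exact Finset.sum_congr rfl fun ω _ => by ring
    rw [hsum, one_mul, mul_eq_zero, mul_eq_zero] at e
    exact (e.resolve_left hr₀).resolve_left (pow_ne_zero _ (Nat.cast_ne_zero.mpr hp.out.ne_zero))
  · intro r _ hr
    have hsum : ∑ ω, a ω * S.ρ (jC j ω) ^ p ^ (r : ℕ) = 0 := by
      simpa [Fin.ext_iff.not.mp hr] using ha r r.2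
    set X := w r * ((p : ℂ_[p]) ^ (((r : ℕ) + t) / n) * v ⟨((r : ℕ) + t) % n, Nat.mod_lt _ hn⟩)
    calc _ = (∑ ω, a ω * S.ρ (jC j ω) ^ p ^ (r : ℕ)) * X := by
          rw [Finset.sum_mul]
          exact Finset.sum_congr rfl fun ω _ => by ring
      _ = 0 := by rw [hsum, zero_mul]
  · intro h0
    exact absurd (Finset.mem_univ _) h0

/-- Two linear forms that agree on all period vectors are equal. -/
lemma eq_of_dot_pv (hP : PeriodTarget) (hn : 1 ≤ n) (hk : Fintype.card k = p ^ n)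
    (hπ : ∃ π : C, π ≠ 0 ∧ ‖π‖ < 1) (j : k →+* unitBall C) {l l' : Fin n → ℂ_[p]}
    (h : ∀ η : C, ‖η‖ < 1 → l ⬝ᵥ pv S n η = l' ⬝ᵥ pv S n η) : l = l' := by
  rw [← sub_eq_zero]
  by_contra hne
  obtain ⟨η, hη, hη0⟩ := ((hP p C S n hn).2.1 hπ) 1 one_pos
  refine hη0 ?_
  have hz := eq_zero_of_monMat (S := S) (j := j) hn hk hne (v := pv S n η) fun ω t => by
    rw [← (hasMat_monomial hP hn hk ω t).2 η hη, sub_dotProduct, sub_eq_zero]
    exact h _ (ev1_mapjC_small j (hasMat_monomial (S := S) (j := j) hP hn hk ω t).1 hη)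
  exact congrFun hz ⟨0, hn⟩

/-! ## Powers of an admissible automorphism -/

omit [CompleteSpace C] [CharP C p] [PerfectRing C p] in
lemma sub_const_mem (f : LT p n k) :
    f - MvPowerSeries.C (MvPowerSeries.constantCoeff f) ∈ mIdeal p n k := by
  classical
  have key := mem_span_of_coeff (Finset.univ : Finset (Fin (n - 1))) (p : WittVector p k)
    (f - MvPowerSeries.C (MvPowerSeries.constantCoeff f)) fun d hd => by
      have hd0 : d = 0 := Finsupp.ext fun i => hd i (Finset.mem_univ i)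
      rw [hd0, map_sub, coeff_zero_C, coeff_zero_eq_constantCoeff_apply, sub_self]
      exact dvd_zero _
  refine Ideal.span_mono ?_ key
  rintro x (hx | ⟨i, -, rfl⟩)
  · left
    rw [hx, map_natCast]
  · exact Or.inr ⟨i, rfl⟩

omit [Fintype k] in
lemma res_mIdeal {f : LT p n k} (hf : f ∈ mIdeal p n k) : res p n k f = 0 := by
  refine Submodule.span_induction (fun x hx => ?_) (map_zero _)
    (fun x y _ _ a b => by rw [map_add, a, b, add_zero])
    (fun a x _ hx => by rw [smul_eq_mul, map_mul, hx, mul_zero]) hf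
  rcases hx with rfl | ⟨i, rfl⟩
  · rw [map_natCast, CharP.cast_eq_zero]
  · exact res_X p n k i

lemma res_gamma (hA : ActionTarget) (hn : 1 ≤ n) (hk : Fintype.card k = p ^ n)
    {g : PowerSeries k} {γ : LT p n k →+* LT p n k} {φ : PowerSeries (LT p n k)}
    (hg : IsAut p n k g) (hγ : IsAction p n k g 0 γ φ) (f : LT p n k) :
    res p n k (γ f) = res p n k f := by
  obtain ⟨-, -, -, hm, -⟩ := (hA p n hn k hk).2.1 g 0 γ φ hg hγ
  have hmap : ∀ x ∈ mIdeal p n k, γ x ∈ mIdeal p n k := fun x hx => by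
    refine Submodule.span_induction (fun y hy => ?_) ?_ (fun y z _ _ a b => ?_)
      (fun a y _ hy => ?_) hx
    · rcases hy with rfl | ⟨i, rfl⟩
      · rw [map_natCast]
        exact Ideal.subset_span (Set.mem_insert _ _)
      · exact hm i
    · rw [map_zero]; exact (mIdeal p n k).zero_mem
    · rw [map_add]; exact (mIdeal p n k).add_mem a b
    · rw [smul_eq_mul, map_mul]; exact (mIdeal p n k).mul_mem_left _ hy
  have h := res_mIdeal (hmap _ (sub_const_mem f))
  rw [map_sub, map_sub, hγ.1, sub_eq_zero] at h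
  rw [h]
  simp [res]

omit [CompleteSpace C] [CharP C p] [PerfectRing C p] in
lemma isHom_map {A B : Type*} [CommRing A] [CommRing B] (f : A →+* B) {F G : FormalGroup A}
    {φ : PowerSeries A} (h : IsHom F G φ) : IsHom (F.map f) (G.map f) (PowerSeries.map f φ) := by
  refine ⟨by rw [← PowerSeries.coeff_zero_eq_constantCoeff_apply, PowerSeries.coeff_map,
    PowerSeries.coeff_zero_eq_constantCoeff_apply, h.1, map_zero], ?_⟩
  have hs : ∀ a : MvPowerSeries (Fin 2) A, constantCoeff a = 0 →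
      MvPowerSeries.map f (φ.subst a) = (PowerSeries.map f φ).subst (MvPowerSeries.map f a) :=
    fun a ha => PowerSeries.map_subst (PowerSeries.HasSubst.of_constantCoeff_zero ha) φ
  have h2 := congrArg (MvPowerSeries.map f) h.2
  rw [hs _ (FormalGroup.zero_constantCoeff _), map_fadd_endo _ _
      (ps_constantCoeff h.1 (constantCoeff_X _)) (ps_constantCoeff h.1 (constantCoeff_X _)),
    hs _ (constantCoeff_X _), hs _ (constantCoeff_X _), map_X, map_X,
    ← FormalGroup.map_toPowerSeries] at h2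
  exact h2

lemma isAction_comp (hA : ActionTarget) (hn : 1 ≤ n) (hk : Fintype.card k = p ^ n)
    {g g' : PowerSeries k} {γ γ' : LT p n k →+* LT p n k} {φ φ' : PowerSeries (LT p n k)}
    (hg : IsAut p n k g) (hγ : IsAction p n k g 0 γ φ) (hg' : IsAut p n k g')
    (hγ' : IsAction p n k g' 0 γ' φ') :
    IsAut p n k (g'.subst g) ∧
      IsAction p n k (g'.subst g) 0 (γ.comp γ') ((PowerSeries.map γ φ').subst φ) := by
  refine ⟨⟨IsHom.comp hg.1 hg'.1, ?_⟩, ⟨fun a => ?_, ?_, ?_⟩⟩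
  · have h := coeff_subst_sum (τ := Unit) g' hg.1.1 (D := 1) (d := Finsupp.single () 1)
      (by rw [Finsupp.degree_single])
    rw [show PowerSeries.coeff 1 (g'.subst g) =
      ∑ m ∈ Finset.range (1 + 1), PowerSeries.coeff m g' * PowerSeries.coeff 1 (g ^ m) from h]
    rw [Finset.sum_range_succ, Finset.sum_range_one, pow_one, pow_zero, PowerSeries.coeff_one,
      if_neg one_ne_zero, mul_zero, zero_add]
    exact hg'.2.mul hg.2
  · show γ (γ' (MvPowerSeries.C a)) = _
    rw [hγ'.1 a]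
    simp only [Function.iterate_zero_apply]
    simpa using hγ.1 a
  · have h := IsHom.comp hγ.2.1 (isHom_map γ hγ'.2.1)
    rwa [formalGroup_map_map] at h
  · have h1 : PowerSeries.map (res p n k) (PowerSeries.map γ φ') = g' := by
      rw [← hγ'.2.2]
      ext m
      simp only [PowerSeries.coeff_map]
      exact res_gamma hA hn hk hg hγ _
    have h2 := PowerSeries.map_subst (h := res p n k)
      (PowerSeries.HasSubst.of_constantCoeff_zero' hγ.2.1.1) (PowerSeries.map γ φ')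
    refine h2.trans ?_
    rw [h1]
    exact congrArg (fun x => PowerSeries.subst x g') hγ.2.2

/-- The orbit of a point under the powers of an automorphism. -/
def orbitPt (ι : WittVector p k →+* ℂ_[p]) (γ : LT p n k →+* LT p n k)
    (u : Fin (n - 1) → ℂ_[p]) : ℕ → Fin (n - 1) → ℂ_[p]
  | 0 => u
  | m + 1 => fun i => evK ι (orbitPt ι γ u m) (γ (MvPowerSeries.X i))

/-- The iterates of an action. -/
def gammaIter (γ : LT p n k →+* LT p n k) : ℕ → (LT p n k →+* LT p n k)
  | 0 => RingHom.id _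
  | m + 1 => (gammaIter γ m).comp γ

lemma exists_action_iter (hA : ActionTarget) (hn : 1 ≤ n) (hk : Fintype.card k = p ^ n)
    {g : PowerSeries k} {γ : LT p n k →+* LT p n k} {φ : PowerSeries (LT p n k)}
    (hg : IsAut p n k g) (hγ : IsAction p n k g 0 γ φ) :
    ∀ m, ∃ g' φ', IsAut p n k g' ∧ IsAction p n k g' 0 (gammaIter γ (m + 1)) φ' := by
  intro m
  induction m with
  | zero => exact ⟨g, φ, hg, by simpa [gammaIter] using hγ⟩
  | succ m ih =>
    obtain ⟨g', φ', hg', hγ'⟩ := ih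
    obtain ⟨h1, h2⟩ := isAction_comp hA hn hk hg' hγ' hg hγ
    exact ⟨_, _, h1, h2⟩

lemma evK_orbit (hA : ActionTarget) (hn : 1 ≤ n) (hk : Fintype.card k = p ^ n)
    {g : PowerSeries k} {γ : LT p n k →+* LT p n k} {φ : PowerSeries (LT p n k)}
    (hg : IsAut p n k g) (hγ : IsAction p n k g 0 γ φ) {u : Fin (n - 1) → ℂ_[p]} (hu : Small u) :
    ∀ m, Small (orbitPt (iota S j) γ u m) ∧
      ∀ f, evK (iota S j) (orbitPt (iota S j) γ u m) f =
        evK (iota S j) u (gammaIter γ m f) := by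
  intro m
  induction m with
  | zero => exact ⟨hu, fun f => rfl⟩
  | succ m ih =>
    obtain ⟨-, -, -, -, hev⟩ := (hA p n hn k hk).2.1 g 0 γ φ hg hγ
    obtain ⟨h1, h2⟩ := hev ℂ_[p] (iota S j) (norm_iota_le S j) (norm_iota_p S j) _ ih.1
    simp only [pow_zero] at h2
    refine ⟨h1, fun f => ?_⟩
    show evK (iota S j) (fun i => evK (iota S j) _ (γ (MvPowerSeries.X i))) f = _
    rw [gammaIter, RingHom.comp_apply, ← ih.2 (γ f)]
    exact (h2 f).symm

lemma wv_orbit (hA : ActionTarget) (hTh : ThetaTarget) (hP : PeriodTarget) (hHom : HomTarget)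
    (hn : 1 ≤ n) (hk : Fintype.card k = p ^ n) (hπ : ∃ π : C, π ≠ 0 ∧ ‖π‖ < 1)
    {g : PowerSeries k} {γ : LT p n k →+* LT p n k} {φ : PowerSeries (LT p n k)}
    (hg : IsAut p n k g) (hγ : IsAction p n k g 0 γ φ) {u : Fin (n - 1) → ℂ_[p]} (hu : Small u)
    {G : Matrix (Fin n) (Fin n) ℂ_[p]} (hG : HasMat S j n g G) :
    ∀ m, ∃ lam : ℂ_[p], wv n (orbitPt (iota S j) γ u m) ᵥ* (G ^ m) = lam • wv n u := by
  intro m
  induction m with
  | zero => exact ⟨1, by simp [orbitPt]⟩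
  | succ m ih =>
    obtain ⟨lam, hlam⟩ := ih
    obtain ⟨hs, -⟩ := evK_orbit (S := S) (j := j) hA hn hk hg hγ hu m
    obtain ⟨-, lam', hstep⟩ := exists_step S j hA hTh hP hHom hn hk hs hg hγ
    have h : wv n (orbitPt (iota S j) γ u (m + 1)) ᵥ* G =
        lam' • wv n (orbitPt (iota S j) γ u m) := by
      refine eq_of_dot_pv (S := S) hP hn hk hπ j fun η hη => ?_
      rw [← Matrix.dotProduct_mulVec, ← hG.2 η hη, ← Lv_eq_dot, smul_dotProduct, ← Lv_eq_dot,
        smul_eq_mul]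
      exact hstep η hη
    exact ⟨lam' * lam, by rw [pow_succ', ← Matrix.vecMul_vecMul, h, Matrix.smul_vecMul, hlam, smul_smul]⟩

end Vale.Agent.P217

end
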